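import Vale.Agent.P267.H714.Sol

/-!
# Flow boxes on the surface (for LeafThm)
-/

open Set Filter Metric
open scoped Topology Manifold ContDiff NNReal

noncomputable section

namespace Vale.Agent.P267.H714

open Vale.Agent.P267.FL Vale.Agent.P267.H759

variable {M : Type*} [TopologicalSpace M] [ChartedSpace C2 M]

/-- A flow box: on `V'` the field `X` (in the chart `e`) satisfies `|ω (X, u)| = |d zz (u)|`;
`ψ` is its flow, starting in `V`, with values in `V'`. -/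
structure Box (D : LeafIn M) where
  e : Ch M
  e_hc : HC e
  V' : Set M
  V'_open : IsOpen V'
  V'_src : V' ⊆ e.source
  V'_Y : V' ⊆ D.Y
  X : C2 → C2
  X_cd : ∀ y ∈ V', ContDiffAt ℂ 2 X (e y)
  X_spec : ∀ y ∈ V', ∀ u, Ge D e y * ‖wd (X (e y)) u‖ = ‖dzz D e y u‖
  V : Set M
  V_open : IsOpen V
  V_sub : V ⊆ V'
  ε : ℝ
  ε_pos : 0 < ε
  ψ : M → ℂ → M
  ψ_zero : ∀ y ∈ V, ψ y 0 = y
  ψ_mem : ∀ y ∈ V, ∀ s ∈ ball (0 : ℂ) ε, ψ y s ∈ V'
  ψ_der : ∀ y ∈ V, ∀ s ∈ ball (0 : ℂ) ε, HasDerivAt (fun s => e (ψ y s)) (X (e (ψ y s))) s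
  /-- joint holomorphy, in coordinates -/
  ψ_joint : ∀ y ∈ V, ∀ s ∈ ball (0 : ℂ) ε,
    DifferentiableAt ℂ (fun p : C2 × ℂ => e (ψ (e.symm p.1) p.2)) (e y, s)

variable [IsManifold 𝓘(ℂ, C2) ω M]

theorem exists_box (D : LeafIn M) {y₀ : M} (h₀ : y₀ ∈ D.Y) : ∃ B : Box D, y₀ ∈ B.V := by
  set e := chartAt C2 y₀ with he
  have hc : HC e := hc_chart y₀
  have hy₀ : y₀ ∈ e.source := mem_chart_source C2 y₀
  obtain ⟨V₀, hV₀, hyV₀, σ, hσ, hσG⟩ := D.G_loc y₀ h₀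
  set V' : Set M := e.source ∩ (V₀ ∩ D.Y) with hV'
  have hV'o : IsOpen V' := e.open_source.inter (hV₀.inter D.Y_open)
  have hy₀V' : y₀ ∈ V' := ⟨hy₀, hyV₀, h₀⟩
  set O : Set C2 := e.target ∩ e.symm ⁻¹' (V₀ ∩ D.Y) with hO
  have hOo : IsOpen O := e.isOpen_inter_preimage_symm (hV₀.inter D.Y_open)
  have hmapO : ∀ y ∈ V', e y ∈ O := by
    rintro y ⟨h1, h2⟩
    refine ⟨e.map_source h1, ?_⟩
    show e.symm (e y) ∈ V₀ ∩ D.Y
    rw [e.left_inv h1]; exact h2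
  have hmapV : ∀ x ∈ O, e.symm x ∈ V' := fun x hx => ⟨e.map_target hx.1, hx.2⟩
  -- the 2-form and the function in the chart
  set h : C2 → ℂ := loc0 1 e σ with hh
  have hhd : DifferentiableOn ℂ h O := by
    have h1 := hσ e (chart_mem_atlas C2 y₀)
    exact h1.mono fun x hx => ⟨hx.1, hx.2.1⟩
  have hhn : ∀ x ∈ O, ‖h x‖ = Ge D e (e.symm x) := by
    intro x hx
    simp only [hh, loc0, zpow_one, norm_smul, Ge]
    rw [det_jac hc (e.map_target hx.1), hσG _ hx.2.1, mul_comm]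
  have hh0 : ∀ x ∈ O, h x ≠ 0 := by
    intro x hx h0
    have h1 := hhn x hx
    rw [h0, norm_zero] at h1
    exact (Ge_pos hc (hmapV x hx).2.2 (hmapV x hx).1).ne h1
  set f : C2 → ℂ := fun x => D.zz (e.symm x) with hf
  have hfd : DifferentiableOn ℂ f O := by
    intro x hx
    have h1 := hc.diff_fun (e.map_target hx.1) (D.zz_hol _ hx.2.2)
    rw [e.right_inv hx.1] at h1
    exact h1.differentiableWithinAt
  have hfa : AnalyticOnNhd ℂ f O := Vale.Agent.P281.MF.analyticOnNhd_of_differentiableOn hOo hfd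
  have hha : AnalyticOnNhd ℂ h O := Vale.Agent.P281.MF.analyticOnNhd_of_differentiableOn hOo hhd
  set X : C2 → C2 := fun x => ![fderiv ℂ f x (Pi.single 1 1) / h x,
    -(fderiv ℂ f x (Pi.single 0 1)) / h x] with hX
  have hXcd : ∀ x ∈ O, ContDiffAt ℂ 2 X x := by
    intro x hx
    have h1 : AnalyticAt ℂ (fderiv ℂ f) x := (hfa x hx).fderiv
    have h2 : ∀ v : C2, ContDiffAt ℂ 2 (fun x => fderiv ℂ f x v) x := fun v =>
      (h1.contDiffAt).clm_apply contDiffAt_const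
    have h3 : ContDiffAt ℂ 2 h x := (hha x hx).contDiffAt
    rw [contDiffAt_pi]
    intro i
    fin_cases i
    · exact (h2 _).div h3 (hh0 x hx)
    · exact (h2 _).neg.div h3 (hh0 x hx)
  have hXspec : ∀ x ∈ O, ∀ u, Ge D e (e.symm x) * ‖wd (X x) u‖ = ‖fderiv ℂ f x u‖ := by
    intro x hx u
    have h1 : wd (X x) u = fderiv ℂ f x u / h x := by
      have h2 : fderiv ℂ f x u = u 0 * fderiv ℂ f x (Pi.single 0 1) +
          u 1 * fderiv ℂ f x (Pi.single 1 1) := by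
        conv_lhs => rw [c2_decomp u, map_add, map_smul, map_smul]
        rfl
      rw [h2]
      simp only [wd, hX, Matrix.cons_val_zero, Matrix.cons_val_one]
      ring
    rw [h1, norm_div, hhn x hx]
    have := Ge_pos hc (D := D) (hmapV x hx).2.2 (hmapV x hx).1
    field_simp
  -- the flow
  obtain ⟨r, hr, ε, hε, φ, hφ, hφj⟩ := exists_flow (hXcd (e y₀) (hmapO y₀ hy₀V'))
    (hOo.mem_nhds (hmapO y₀ hy₀V'))
  set V : Set M := V' ∩ e ⁻¹' (ball (e y₀) r) with hV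
  have hVo : IsOpen V := by
    have h1 := e.isOpen_inter_preimage (isOpen_ball (x := e y₀) (ε := r))
    have h2 : V = V' ∩ (e.source ∩ e ⁻¹' (ball (e y₀) r)) := by
      ext y
      constructor
      · rintro ⟨h3, h4⟩
        exact ⟨h3, h3.1, h4⟩
      · rintro ⟨h3, -, h4⟩
        exact ⟨h3, h4⟩
    rw [h2]
    exact hV'o.inter h1
  refine ⟨{ e := e, e_hc := hc, V' := V', V'_open := hV'o, V'_src := fun y hy => hy.1
            V'_Y := fun y hy => hy.2.2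
            X := X
            X_cd := fun y hy => hXcd _ (hmapO y hy)
            X_spec := ?_
            V := V, V_open := hVo, V_sub := fun y hy => hy.1
            ε := ε, ε_pos := hε
            ψ := fun y s => e.symm (φ (e y) s)
            ψ_zero := ?_, ψ_mem := ?_, ψ_der := ?_, ψ_joint := ?_ }, ⟨hy₀V', ?_⟩⟩
  · intro y hy u
    have h1 := hXspec (e y) (hmapO y hy) u
    rwa [e.left_inv hy.1] at h1
  · rintro y ⟨hy, hyb⟩
    show e.symm (φ (e y) 0) = y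
    rw [(hφ (e y) hyb).1, e.left_inv hy.1]
  · rintro y ⟨hy, hyb⟩ s hs
    exact hmapV _ ((hφ (e y) hyb).2 s hs).1
  · rintro y ⟨hy, hyb⟩ s hs
    have h1 := ((hφ (e y) hyb).2 s hs).2
    have h2 : ∀ s ∈ ball (0 : ℂ) ε, e (e.symm (φ (e y) s)) = φ (e y) s := fun s hs =>
      e.right_inv ((hφ (e y) hyb).2 s hs).1.1
    show HasDerivAt (fun s => e (e.symm (φ (e y) s))) (X (e (e.symm (φ (e y) s)))) s
    rw [h2 s hs]
    refine h1.congr_of_eventuallyEq ?_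
    filter_upwards [isOpen_ball.mem_nhds hs] with w hw
    exact h2 w hw
  · rintro y ⟨hy, hyb⟩ s hs
    have h1 : DifferentiableAt ℂ (fun p : C2 × ℂ => φ p.1 p.2) (e y, s) :=
      hφj.differentiableAt ((isOpen_ball.prod isOpen_ball).mem_nhds ⟨hyb, hs⟩)
    refine h1.congr_of_eventuallyEq ?_
    have h2 : ∀ᶠ p : C2 × ℂ in 𝓝 (e y, s), p.1 ∈ O ∩ ball (e y₀) r ∧ p.2 ∈ ball (0 : ℂ) ε :=
      prod_mem_nhds ((hOo.inter isOpen_ball).mem_nhds ⟨hmapO y hy, hyb⟩) (isOpen_ball.mem_nhds hs)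
    filter_upwards [h2] with p hp
    show e (e.symm (φ (e (e.symm p.1)) p.2)) = φ p.1 p.2
    rw [e.right_inv hp.1.1.1, e.right_inv ((hφ p.1 hp.1.2).2 p.2 hp.2).1.1]
  · exact mem_ball_self hr

namespace Box

variable {D : LeafIn M} (B : Box D)

theorem X_ne {y : M} (hy : y ∈ B.V') : B.X (B.e y) ≠ 0 ↔ dzz D B.e y ≠ 0 := by
  constructor
  · intro h h0
    apply h
    apply eq_zero_of_wd
    intro u
    have h1 := B.X_spec y hy u
    rw [h0] at h1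
    simp only [zero_apply, norm_zero, mul_eq_zero, norm_eq_zero] at h1
    exact h1.resolve_left (Ge_pos B.e_hc (B.V'_Y hy) (B.V'_src hy)).ne'
  · intro h h0
    apply h
    ext1 u
    have h1 := B.X_spec y hy u
    rw [h0] at h1
    have h2 : wd 0 u = 0 := by simp [wd]
    rw [h2, norm_zero, mul_zero] at h1
    simpa using h1.symm

theorem lip {y : M} (hy : y ∈ B.V') (c : ℂ) :
    ∃ K : ℝ≥0, ∃ t ∈ 𝓝 (B.e y), LipschitzOnWith K (fun x => c • B.X x) t := by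
  have h1 : ContDiffAt ℂ 1 (fun x => c • B.X x) (B.e y) :=
    ((B.X_cd y hy).of_le (one_le_two : (1 : WithTop ℕ∞) ≤ 2)).const_smul c
  exact h1.exists_lipschitzOnWith

/-- the flow never stops -/
theorem ne_of_flow {y : M} (hy : y ∈ B.V) (h : dzz D B.e y ≠ 0) {s : ℂ} (hs : s ∈ ball (0 : ℂ) B.ε) :
    dzz D B.e (B.ψ y s) ≠ 0 := by
  rw [← B.X_ne (B.ψ_mem y hy s hs)]
  intro h0
  obtain ⟨K, t, ht, hK⟩ := B.lip (B.ψ_mem y hy s hs) 1
  simp only [one_smul] at hK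
  have hev : ∀ᶠ w in 𝓝 s, HasDerivAt (fun s => B.e (B.ψ y s)) (B.X (B.e (B.ψ y w))) w := by
    filter_upwards [isOpen_ball.mem_nhds hs] with w hw using B.ψ_der y hy w hw
  have h1 := ode_local_unique ht hK (E₁ := fun s => B.e (B.ψ y s))
    (E₂ := fun _ => B.e (B.ψ y s)) (z₀ := s) hev
    (Eventually.of_forall fun w => by
      show HasDerivAt (fun _ => B.e (B.ψ y s)) (B.X (B.e (B.ψ y s))) w
      rw [h0]; exact hasDerivAt_const _ _) rfl rfl
  have hd : DifferentiableOn ℂ (fun s => B.e (B.ψ y s)) (ball 0 B.ε) := fun w hw =>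
    (B.ψ_der y hy w hw).differentiableAt.differentiableWithinAt
  have h2 := (hd.analyticOnNhd isOpen_ball).eqOn_of_preconnected_of_eventuallyEq
    (g := fun _ => B.e (B.ψ y s)) (fun w _ => analyticAt_const)
    (convex_ball (0 : ℂ) B.ε).isPreconnected hs h1
  have h3 := h2 (mem_ball_self B.ε_pos)
  simp only [B.ψ_zero y hy] at h3
  rw [← h3] at h0
  exact (B.X_ne (B.V_sub hy)).2 h h0

/-- the flow gives solutions -/
theorem sol {ρ : ℝ} {y : M} (hy : y ∈ B.V) (h : dzz D B.e y ≠ 0) {l : ℂ}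
    (hl : ‖l‖ * ρ = 1) : Sol D ρ (fun s => B.ψ y (l * s)) (ball 0 (B.ε * ρ)) := by
  intro s hs
  have hls : l * s ∈ ball (0 : ℂ) B.ε := by
    rw [mem_ball_zero_iff] at *
    rw [norm_mul]
    have h1 : ‖l‖ * ‖s‖ < ‖l‖ * (B.ε * ρ) := mul_lt_mul_of_pos_left hs (by
      by_contra h0
      have : ‖l‖ = 0 := le_antisymm (not_lt.1 h0) (norm_nonneg _)
      rw [this, zero_mul] at hl
      exact zero_ne_one hl)
    calc ‖l‖ * ‖s‖ < ‖l‖ * (B.ε * ρ) := h1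
      _ = (‖l‖ * ρ) * B.ε := by ring
      _ = B.ε := by rw [hl, one_mul]
  have hm := B.ψ_mem y hy _ hls
  have hder : HasDerivAt (fun w => B.e (B.ψ y (l * w))) (l • B.X (B.e (B.ψ y (l * s)))) s := by
    have h1 : HasDerivAt (fun w : ℂ => l * w) l s := by
      simpa using (hasDerivAt_id s).const_mul l
    exact HasDerivAt.scomp s (B.ψ_der y hy _ hls) h1
  have hE : MDifferentiableAt 𝓘(ℂ) 𝓘(ℂ, C2) (fun w => B.ψ y (l * w)) s := by
    have h1 := mdiff_curve B.e_hc hder.differentiableAt (B.e.map_source (B.V'_src hm))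
    refine h1.congr_of_eventuallyEq ?_
    have h2 : ContinuousAt (fun w : ℂ => l * w) s := by fun_prop
    filter_upwards [h2.eventually (isOpen_ball.mem_nhds hls)] with w hw
    rw [B.e.left_inv (B.V'_src (B.ψ_mem y hy _ hw))]
  refine solAt_of_chart B.e_hc (B.V'_Y hm) (B.V'_src hm) hE (B.ne_of_flow hy h hls) ?_
  intro u
  show Ge D B.e (B.ψ y (l * s)) * ‖wd (deriv (fun w => B.e (B.ψ y (l * w))) s) u‖ * ρ = _
  rw [hder.deriv, wd_smul_left, norm_mul, ← B.X_spec _ hm u]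
  calc _ = (‖l‖ * ρ) * (Ge D B.e (B.ψ y (l * s)) * ‖wd (B.X (B.e (B.ψ y (l * s)))) u‖) := by ring
    _ = _ := by rw [hl, one_mul]

/-- Velocity of a solution, in terms of the field of a flow box. -/
theorem velocity {ρ : ℝ} {E : ℂ → M} {z : ℂ} (hE : SolAt D ρ E z)
    (hz : E z ∈ B.V') : ∃ l : ℂ, ‖l‖ * ρ = 1 ∧ deriv (fun w => B.e (E w)) z = l • B.X (B.e (E z)) := by
  have hX : B.X (B.e (E z)) ≠ 0 := (B.X_ne hz).2 (hE.reg' B.e_hc (B.V'_src hz))
  set v := deriv (fun w => B.e (E w)) z with hv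
  have hG := Ge_pos B.e_hc (B.V'_Y hz) (B.V'_src hz)
  have key : ∀ u, ‖wd v u‖ * ρ = ‖wd (B.X (B.e (E z))) u‖ := by
    intro u
    have h1 := hE.ue' B.e_hc (B.V'_src hz) u
    rw [← B.X_spec _ hz u, mul_assoc] at h1
    exact mul_left_cancel₀ hG.ne' h1
  have h0 : wd (B.X (B.e (E z))) v = 0 := by
    have h1 := key v
    rw [wd_self, norm_zero, zero_mul] at h1
    exact norm_eq_zero.1 h1.symm
  obtain ⟨l, hl⟩ := exists_smul_of_wd hX h0
  refine ⟨l, ?_, hl⟩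
  obtain ⟨u, hu⟩ : ∃ u, wd (B.X (B.e (E z))) u ≠ 0 := by
    by_contra hne
    push Not at hne
    exact hX (eq_zero_of_wd hne)
  have h1 := key u
  rw [hl, wd_smul_left, norm_mul] at h1
  have h2 : ‖wd (B.X (B.e (E z))) u‖ ≠ 0 := norm_ne_zero_iff.2 hu
  have h3 : (‖l‖ * ρ) * ‖wd (B.X (B.e (E z))) u‖ = 1 * ‖wd (B.X (B.e (E z))) u‖ := by
    linear_combination h1
  exact mul_right_cancel₀ h2 h3

/-- A solution is locally given by the flow. -/
theorem flow_eq {ρ : ℝ} {E : ℂ → M} {z₀ : ℂ} (hE : ∀ᶠ z in 𝓝 z₀, SolAt D ρ E z)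
    (hz : E z₀ ∈ B.V) : ∃ l : ℂ, ‖l‖ * ρ = 1 ∧
      deriv (fun w => B.e (E w)) z₀ = l • B.X (B.e (E z₀)) ∧
      ∀ᶠ z in 𝓝 z₀, E z = B.ψ (E z₀) (l * (z - z₀)) := by
  have hzV' := B.V_sub hz
  have hEc : ContinuousAt E z₀ := hE.self_of_nhds.diff.continuousAt
  have h1 : ∀ᶠ z in 𝓝 z₀, SolAt D ρ E z ∧ E z ∈ B.V' :=
    hE.and (hEc.eventually (B.V'_open.mem_nhds hzV'))
  obtain ⟨s, hs, hso, hzs⟩ := _root_.eventually_nhds_iff.1 h1
  set x : ℂ → C2 := fun w => B.e (E w) with hx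
  have hxd : DifferentiableOn ℂ x s := fun w hw =>
    (diff_curve B.e_hc (hs w hw).1.diff (B.V'_src (hs w hw).2)).differentiableWithinAt
  have hxa : AnalyticOnNhd ℂ x s := hxd.analyticOnNhd hso
  have hvel : ∀ w ∈ s, ∃ l : ℂ, ‖l‖ * ρ = 1 ∧ deriv x w = l • B.X (x w) := fun w hw =>
    B.velocity (hs w hw).1 (hs w hw).2
  have hX0 : B.X (x z₀) ≠ 0 :=
    (B.X_ne hzV').2 ((hs z₀ hzs).1.reg' B.e_hc (B.V'_src hzV'))
  obtain ⟨j, hj⟩ : ∃ j, B.X (x z₀) j ≠ 0 := by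
    by_contra hne
    push Not at hne
    exact hX0 (funext hne)
  -- the coefficient
  set mu : ℂ → ℂ := fun w => deriv x w j / B.X (x w) j with hmu
  have hXd : ∀ w ∈ s, DifferentiableAt ℂ (fun w => B.X (x w) j) w := by
    intro w hw
    have h2 : DifferentiableAt ℂ B.X (x w) :=
      (B.X_cd _ (hs w hw).2).differentiableAt (by norm_num)
    have h3 : DifferentiableAt ℂ (fun w => B.X (x w)) w :=
      h2.comp w (hxa w hw).differentiableAt
    exact (ContinuousLinearMap.proj (R := ℂ) (φ := fun _ : Fin 2 => ℂ) j).differentiableAt.comp w h3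
  have hXne : ∀ᶠ w in 𝓝 z₀, w ∈ s ∧ B.X (x w) j ≠ 0 := by
    have h0 : ∀ᶠ w in 𝓝 z₀, w ∈ s := hso.mem_nhds hzs
    exact h0.and ((hXd z₀ hzs).continuousAt.eventually_ne hj)
  have hmud : ∀ᶠ w in 𝓝 z₀, DifferentiableAt ℂ mu w := by
    filter_upwards [hXne] with w hw
    have h2 : DifferentiableAt ℂ (deriv x) w := (hxa w hw.1).deriv.differentiableAt
    have h3 : DifferentiableAt ℂ (fun w => deriv x w j) w :=
      (ContinuousLinearMap.proj (R := ℂ) (φ := fun _ : Fin 2 => ℂ) j).differentiableAt.comp w h2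
    exact h3.div (hXd w hw.1) hw.2
  have hmul : ∀ w ∈ s, B.X (x w) j ≠ 0 → ‖mu w‖ * ρ = 1 ∧ deriv x w = mu w • B.X (x w) := by
    intro w hw hne
    obtain ⟨l, hl1, hl2⟩ := hvel w hw
    have h2 : mu w = l := by
      simp only [hmu, hl2, Pi.smul_apply, smul_eq_mul]
      field_simp
    rw [h2]
    exact ⟨hl1, hl2⟩
  have hconst : ∀ᶠ w in 𝓝 z₀, mu w = mu z₀ := by
    refine Complex.eventually_eq_of_isLocalMax_norm hmud ?_
    filter_upwards [hXne] with w hw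
    have h2 := (hmul w hw.1 hw.2).1
    have h3 := (hmul z₀ hzs hj).1
    have hρ : ρ ≠ 0 := right_ne_zero_of_mul (h3.symm ▸ one_ne_zero)
    have h4 : ‖mu w‖ = ‖mu z₀‖ := mul_right_cancel₀ hρ (h2.trans h3.symm)
    exact h4.le
  set l := mu z₀ with hl
  obtain ⟨hl1, hl2⟩ := hmul z₀ hzs hj
  refine ⟨l, hl1, hl2, ?_⟩
  -- uniqueness
  obtain ⟨K, t, ht, hK⟩ := B.lip hzV' l
  have e1 : ∀ᶠ w in 𝓝 z₀, HasDerivAt x (l • B.X (x w)) w := by
    filter_upwards [hconst, hXne] with w h2 h3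
    rw [← h2, ← (hmul w h3.1 h3.2).2]
    exact (hxa w h3.1).differentiableAt.hasDerivAt
  have hcont : ContinuousAt (fun w : ℂ => l * (w - z₀)) z₀ := by fun_prop
  have hball : ∀ᶠ w in 𝓝 z₀, l * (w - z₀) ∈ ball (0 : ℂ) B.ε := by
    refine hcont.eventually (isOpen_ball.mem_nhds ?_)
    simp [B.ε_pos]
  have e2 : ∀ᶠ w in 𝓝 z₀, HasDerivAt (fun w => B.e (B.ψ (E z₀) (l * (w - z₀))))
      (l • B.X (B.e (B.ψ (E z₀) (l * (w - z₀))))) w := by
    filter_upwards [hball] with w hw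
    have h2 : HasDerivAt (fun w : ℂ => l * (w - z₀)) l w := by
      simpa using ((hasDerivAt_id w).sub_const z₀).const_mul l
    exact HasDerivAt.scomp w (B.ψ_der (E z₀) hz _ hw) h2
  have h5 := ode_local_unique ht hK e1 e2 rfl (by simp [B.ψ_zero _ hz])
  filter_upwards [h5, h1, hball] with w h6 h7 h8
  have h9 : B.e (E w) = B.e (B.ψ (E z₀) (l * (w - z₀))) := h6
  exact B.e.injOn (B.V'_src h7.2) (B.V'_src (B.ψ_mem _ hz _ h8)) h9

end Box

/-- Two solutions through the same point differ by a rotation of the time plane. -/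
theorem sol_rot {D : LeafIn M} {ρ : ℝ} {E₁ E₂ : ℂ → M} {z₁ z₂ : ℂ}
    (h₁ : ∀ᶠ z in 𝓝 z₁, SolAt D ρ E₁ z) (h₂ : ∀ᶠ z in 𝓝 z₂, SolAt D ρ E₂ z)
    (h : E₁ z₁ = E₂ z₂) : ∃ ζ : ℂ, ‖ζ‖ = 1 ∧ ∀ᶠ w in 𝓝 (0 : ℂ), E₂ (z₂ + w) = E₁ (z₁ + ζ * w) := by
  obtain ⟨B, hB⟩ := exists_box D h₁.self_of_nhds.mem
  obtain ⟨l₁, hl₁, -, e₁⟩ := B.flow_eq h₁ hB
  obtain ⟨l₂, hl₂, -, e₂⟩ := B.flow_eq h₂ (by rw [← h]; exact hB)
  have hρ : ρ ≠ 0 := right_ne_zero_of_mul (hl₁.symm ▸ one_ne_zero)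
  have hn : ‖l₂‖ = ‖l₁‖ := mul_right_cancel₀ hρ (hl₂.trans hl₁.symm)
  have hl0 : ‖l₁‖ ≠ 0 := left_ne_zero_of_mul (hl₁.symm ▸ one_ne_zero)
  have hl0' : l₁ ≠ 0 := norm_ne_zero_iff.1 hl0
  refine ⟨l₂ / l₁, by rw [norm_div, hn, div_self hl0], ?_⟩
  have c1 : Tendsto (fun w : ℂ => z₁ + l₂ / l₁ * w) (𝓝 0) (𝓝 z₁) := by
    have : ContinuousAt (fun w : ℂ => z₁ + l₂ / l₁ * w) 0 := by fun_prop
    simpa [ContinuousAt] using this
  have c2 : Tendsto (fun w : ℂ => z₂ + w) (𝓝 0) (𝓝 z₂) := by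
    have : ContinuousAt (fun w : ℂ => z₂ + w) 0 := by fun_prop
    simpa [ContinuousAt] using this
  filter_upwards [c1.eventually e₁, c2.eventually e₂] with w h3 h4
  rw [h3, h4, ← h]
  congr 1
  field_simp
  ring

end Vale.Agent.P267.H714
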