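import Vale.Agent.P267.H714.Box

/-!
# Extension of unit speed solutions (for LeafThm)
-/

open Set Filter Metric
open scoped Topology Manifold ContDiff Pointwise

noncomputable section

namespace Vale.Agent.P267.H714

open Vale.Agent.P267.FL Vale.Agent.P267.H759

variable {M : Type*} [TopologicalSpace M] [ChartedSpace C2 M]

/-- the unit of time on the leaf `zz = c ^ m` -/
def rho (D : LeafIn M) (c : ℂ) : ℝ := D.m * ‖c‖ ^ (D.m - 1)

theorem rho_pos (D : LeafIn M) {c : ℂ} (hc : 0 < ‖c‖) : 0 < rho D c := by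
  have := D.m_pos
  unfold rho
  positivity

/-- The solution on the leaf of `κ (c, 1)`, normalised by the collar. -/
def Good (D : LeafIn M) (c : ℂ) (E : ℂ → M) : Prop :=
  Sol D (D.m * ‖c‖ ^ (D.m - 1)) E (ball 1 6) ∧ ∃ T0 : ℂ → ℂ, T0 1 = 1 ∧
    ∀ᶠ z in 𝓝 1, E z = D.κ ![c, T0 z] ∧ HasDerivAt T0 (1 / D.η ![c, T0 z]) z

variable [T2Space M] [IsManifold 𝓘(ℂ, C2) ω M] {D : LeafIn M} {ρ : ℝ}

theorem glue_ball {E : ℂ → M} {a : ℂ} {R δ : ℝ} (hR : 0 < R) (hδ : 0 < δ)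
    (hE : Sol D ρ E (ball a R))
    (hloc : ∀ z₀ ∈ ball a R, ∃ F : ℂ → M, Sol D ρ F (ball z₀ δ) ∧ F =ᶠ[𝓝 z₀] E) :
    ∃ E' : ℂ → M, Sol D ρ E' (ball a (R + δ)) ∧ EqOn E' E (ball a R) := by
  classical
  have : Nonempty M := ⟨E 0⟩
  choose! F hF hFE using hloc
  -- `F z₀ = E` on `ball z₀ δ ∩ ball a R`
  have h1 : ∀ z₀ ∈ ball a R, EqOn (F z₀) E (ball z₀ δ ∩ ball a R) := by
    intro z₀ hz₀
    exact eqOn_of_eventuallyEq (isOpen_ball.inter isOpen_ball)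
      ((convex_ball z₀ δ).inter (convex_ball a R)).isPreconnected
      ((hF z₀ hz₀).mdiff.mono inter_subset_left) (hE.mdiff.mono inter_subset_right)
      ⟨mem_ball_self hδ, hz₀⟩ (hFE z₀ hz₀)
  have h2 : ∀ z₁ ∈ ball a R, ∀ z₂ ∈ ball a R, EqOn (F z₁) (F z₂) (ball z₁ δ ∩ ball z₂ δ) := by
    intro z₁ hz₁ z₂ hz₂ w hw
    have hd : dist z₁ z₂ < 2 * δ := by
      have := dist_triangle_left z₁ z₂ w
      have h3 := mem_ball.1 hw.1
      have h4 := mem_ball.1 hw.2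
      linarith
    set p := midpoint ℝ z₁ z₂ with hp
    have hp1 : p ∈ ball z₁ δ := by
      rw [mem_ball, dist_midpoint_left, Real.norm_ofNat]
      linarith
    have hp2 : p ∈ ball z₂ δ := by
      rw [mem_ball, dist_midpoint_right, Real.norm_ofNat]
      linarith
    have hpa : p ∈ ball a R := (convex_ball a R).midpoint_mem hz₁ hz₂
    refine eqOn_of_eventuallyEq (isOpen_ball.inter isOpen_ball)
      ((convex_ball z₁ δ).inter (convex_ball z₂ δ)).isPreconnected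
      ((hF z₁ hz₁).mdiff.mono inter_subset_left) ((hF z₂ hz₂).mdiff.mono inter_subset_right)
      (z₀ := p) ⟨hp1, hp2⟩ ?_ hw
    filter_upwards [(isOpen_ball.inter (isOpen_ball.inter isOpen_ball)).mem_nhds
      (⟨hp1, hp2, hpa⟩ : p ∈ ball z₁ δ ∩ (ball z₂ δ ∩ ball a R))] with x hx
    rw [h1 z₁ hz₁ ⟨hx.1, hx.2.2⟩, h1 z₂ hz₂ ⟨hx.2.1, hx.2.2⟩]
  have hcov : ∀ z ∈ ball a (R + δ), ∃ z₀ ∈ ball a R, z ∈ ball z₀ δ := by
    intro z hz
    have h3 : ball a R + ball 0 δ = ball (a + 0) (R + δ) := ball_add_ball hR hδ a 0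
    rw [add_zero] at h3
    rw [← h3] at hz
    obtain ⟨z₀, hz₀, w, hw, rfl⟩ := Set.mem_add.1 hz
    refine ⟨z₀, hz₀, ?_⟩
    rw [mem_ball_zero_iff] at hw
    rw [mem_ball, dist_eq_norm, add_sub_cancel_left]
    exact hw
  choose! p hp hpb using hcov
  refine ⟨fun z => if z ∈ ball a (R + δ) then F (p z) z else E z, ?_, ?_⟩
  · intro z hz
    refine (hF (p z) (hp z hz) z (hpb z hz)).congr ?_
    filter_upwards [isOpen_ball.mem_nhds hz, isOpen_ball.mem_nhds (hpb z hz)] with w hw hwp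
    simp only [hw, if_true]
    exact h2 (p z) (hp z hz) (p w) (hp w hw) ⟨hwp, hpb w hw⟩
  · intro z hz
    have hz' : z ∈ ball a (R + δ) := ball_subset_ball (by linarith) hz
    simp only [hz', if_true]
    exact h1 (p z) (hp z hz') ⟨hpb z hz', hz⟩

omit [T2Space M] in
/-- uniform size of the flow boxes on a compact set -/
theorem exists_boxes {K : Set M} (hK : IsCompact K) (hKY : K ⊆ D.Y) (hρ : 0 < ρ) :
    ∃ δ > 0, ∀ y ∈ K, ∃ B : Box D, y ∈ B.V ∧ δ ≤ B.ε * ρ := by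
  refine hK.induction_on (p := fun S => ∃ δ > 0, ∀ y ∈ S, ∃ B : Box D, y ∈ B.V ∧ δ ≤ B.ε * ρ)
    ⟨1, one_pos, fun y hy => absurd hy (notMem_empty y)⟩ ?_ ?_ ?_
  · rintro s t hst ⟨δ, hδ, h⟩
    exact ⟨δ, hδ, fun y hy => h y (hst hy)⟩
  · rintro s t ⟨δ, hδ, h⟩ ⟨δ', hδ', h'⟩
    refine ⟨min δ δ', lt_min hδ hδ', fun y hy => ?_⟩
    rcases hy with hy | hy
    · obtain ⟨B, h1, h2⟩ := h y hy
      exact ⟨B, h1, (min_le_left _ _).trans h2⟩
    · obtain ⟨B, h1, h2⟩ := h' y hy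
      exact ⟨B, h1, (min_le_right _ _).trans h2⟩
  · intro y hy
    obtain ⟨B, hB⟩ := exists_box D (hKY hy)
    exact ⟨B.V, mem_nhdsWithin_of_mem_nhds (B.V_open.mem_nhds hB), B.ε * ρ,
      mul_pos B.ε_pos hρ, fun y hy => ⟨B, hy, le_rfl⟩⟩

/-- **Extension**: a solution on a disc with values in a compact set extends to a larger disc. -/
theorem ext_compact {K : Set M} (hK : IsCompact K) (hKY : K ⊆ D.Y) (hρ : 0 < ρ) :
    ∃ δ > 0, ∀ (E : ℂ → M) (a : ℂ) (R : ℝ), 0 < R → Sol D ρ E (ball a R) →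
      MapsTo E (ball a R) K → ∃ E' : ℂ → M, Sol D ρ E' (ball a (R + δ)) ∧ EqOn E' E (ball a R) := by
  obtain ⟨δ, hδ, hbox⟩ := exists_boxes hK hKY hρ
  refine ⟨δ, hδ, fun E a R hR hE hEK => glue_ball hR hδ hE fun z₀ hz₀ => ?_⟩
  obtain ⟨B, hB, hBδ⟩ := hbox (E z₀) (hEK hz₀)
  have hev : ∀ᶠ z in 𝓝 z₀, SolAt D ρ E z := by
    filter_upwards [isOpen_ball.mem_nhds hz₀] with z hz using hE z hz
  obtain ⟨l, hl1, -, hl3⟩ := B.flow_eq hev hB
  have hreg : dzz D B.e (E z₀) ≠ 0 := (hE z₀ hz₀).reg' B.e_hc (B.V'_src (B.V_sub hB))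
  have hsol := B.sol hB hreg hl1
  refine ⟨fun z => B.ψ (E z₀) (l * (z - z₀)), ?_, ?_⟩
  · intro z hz
    have h1 : SolAt D ρ (fun s => B.ψ (E z₀) (l * s)) (1 * z + -z₀) := by
      refine hsol _ ?_
      rw [mem_ball_zero_iff, one_mul, ← sub_eq_add_neg]
      rw [mem_ball, dist_eq_norm] at hz
      exact hz.trans_le hBδ
    have h2 := SolAt.comp_isometry (ζ := 1) (b := -z₀) (by simp) h1
    simpa only [one_mul, ← sub_eq_add_neg] using h2
  · filter_upwards [hl3] with z hz using hz.symm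

/-- Existence of the solutions on the leaves, from the collar estimates. -/
theorem exists_sol_six {c : ℂ} (hc : 0 < ‖c‖)
    (esc : ∀ R : ℝ, R ≤ 6 → ∀ E : ℂ → M, Sol D (rho D c) E (ball 1 R) → E 1 = D.κ ![c, 1] →
      ∀ z ∈ ball (1 : ℂ) R, E z ∈ {y | y ∈ D.Y ∧ D.zz y = c ^ D.m} \
        D.κ '' {x | x ∈ cusp D.c₀ D.δ D.μ ∧ 15 / 2 < ‖x 1‖})
    {r₀ : ℝ} (hr₀ : 0 < r₀) {E₀ : ℂ → M} (h₀ : Sol D (rho D c) E₀ (ball 1 r₀))
    (h₁ : E₀ 1 = D.κ ![c, 1]) :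
    ∃ E : ℂ → M, Sol D (rho D c) E (ball 1 6) ∧ E =ᶠ[𝓝 1] E₀ := by
  have hc0 : c ^ D.m ≠ 0 := pow_ne_zero _ (norm_pos_iff.1 hc)
  obtain ⟨δ, hδ, hext⟩ := ext_compact (D := D) (D.κ_compact (c ^ D.m) hc0 (15 / 2) (by norm_num))
    (fun y hy => hy.1.1) (rho_pos D hc)
  have hmin0 : 0 < min r₀ 6 := lt_min hr₀ (by norm_num)
  have main : ∀ n : ℕ, ∃ E : ℂ → M, Sol D (rho D c) E (ball 1 (min (min r₀ 6 + n * δ) 6)) ∧
      EqOn E E₀ (ball 1 (min r₀ 6)) := by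
    intro n
    induction n with
    | zero =>
      refine ⟨E₀, h₀.mono (ball_subset_ball ?_), fun z _ => rfl⟩
      rw [Nat.cast_zero, zero_mul, add_zero]
      exact (min_le_left _ _).trans (min_le_left _ _)
    | succ n ih =>
      obtain ⟨E, hE, hEE⟩ := ih
      have hpos : 0 < min (min r₀ 6 + n * δ) 6 := lt_min (by positivity) (by norm_num)
      have hE1 : E 1 = D.κ ![c, 1] := by rw [hEE (mem_ball_self hmin0), h₁]
      obtain ⟨E', hE', hEE'⟩ := hext E 1 _ hpos hE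
        (esc _ (min_le_right _ _) E hE hE1)
      refine ⟨E', hE'.mono (ball_subset_ball ?_), fun z hz => ?_⟩
      · rw [Nat.cast_succ, add_mul, one_mul, ← add_assoc]
        rcases le_total (min r₀ 6 + n * δ) 6 with h | h
        · rw [min_eq_left h]
          exact min_le_left _ _
        · rw [min_eq_right h]
          exact (min_le_right _ _).trans (by linarith)
      · rw [hEE' (ball_subset_ball ?_ hz), hEE hz]
        refine le_min ?_ (min_le_right _ _)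
        have : 0 ≤ (n : ℝ) * δ := by positivity
        linarith
  obtain ⟨n, hn⟩ := exists_nat_gt (6 / δ)
  obtain ⟨E, hE, hEE⟩ := main n
  have h6 : min (min r₀ 6 + n * δ) 6 = 6 := by
    refine min_eq_right ?_
    rw [div_lt_iff₀ hδ] at hn
    linarith
  rw [h6] at hE
  refine ⟨E, hE, ?_⟩
  filter_upwards [ball_mem_nhds (1 : ℂ) hmin0] with z hz using hEE hz

end Vale.Agent.P267.H714
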