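import Vale.Agent.P267.H714.Out
import Vale.Agent.P267.H217.LInj
import Vale.Agent.P267.H217.Cmp2

/-!
# The leaf theorem `LeafThm` (H759/LeafIface)
-/

open Set Filter Metric
open scoped Topology Manifold ContDiff NNReal

noncomputable section

namespace Vale.Agent.P267.H714

open Vale.Agent.P267.FL Vale.Agent.P267.H759

variable {M : Type*} [TopologicalSpace M] [ChartedSpace C2 M] [T2Space M]
  [IsManifold 𝓘(ℂ, C2) ω M]

theorem exists_good (D : LeafIn M) (c : ℂ) : ∃ E : ℂ → M, 0 < ‖c‖ → ‖c‖ < D.c₀ →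
    Good D c E := by
  have hne : Nonempty (ℂ → M) := by
    refine ⟨fun _ => D.κ ![0, 1]⟩
  by_cases h : 0 < ‖c‖ ∧ ‖c‖ < D.c₀
  · obtain ⟨hc, hc'⟩ := h
    obtain ⟨r₀, hr₀, E₀, T₀, h1, h2, h3, h4⟩ := H217.start_sol D (norm_pos_iff.1 hc) hc'
    obtain ⟨E, hE, hEE⟩ := exists_sol_six (D := D) hc
      (fun R hR E hE hE1 => H217.no_escape (norm_pos_iff.1 hc) hc' hR hE hE1) hr₀ h1 h3
    refine ⟨E, fun _ _ => ⟨hE, T₀, h2, ?_⟩⟩
    filter_upwards [h4, hEE] with z h5 h6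
    exact ⟨h6.trans h5.1, h5.2⟩
  · exact ⟨hne.some, fun h1 h2 => absurd ⟨h1, h2⟩ h⟩

theorem exists_pack (D : LeafIn M) : ∃ Ef : ℂ → ℂ → M, Pack D Ef := by
  choose Ef hEf using exists_good D
  refine ⟨Ef, ?_⟩
  have h1 : ∀ c : ℂ, 0 < ‖c‖ → ‖c‖ < D.c₀ → Ef c 1 = D.κ ![c, 1] := by
    intro c hc hc'
    obtain ⟨-, T, hT, hT'⟩ := hEf c hc hc'
    have := hT'.self_of_nhds.1
    rwa [hT] at this
  have hmd : ∀ c : ℂ, 0 < ‖c‖ → ‖c‖ < D.c₀ → MDifferentiableOn 𝓘(ℂ) 𝓘(ℂ, C2) (Ef c) (ball 1 6) :=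
    fun c hc hc' => (hEf c hc hc').1.mdiff
  exact
  { good := hEf
    start := fun c _ hc' => H217.start D hc'
    zz := fun c hc hc' z hz => (H217.zz_sol hc' (hEf c hc hc').1 (h1 c hc hc') z hz).2
    esc := fun c hc hc' z hz x hx h =>
      H217.speed (norm_pos_iff.1 hc) hc' (hEf c hc hc').1 (h1 c hc hc') z hz x hx h
    cmp := by
      intro c hc hc'
      obtain ⟨-, T₀, hT, hT'⟩ := hEf c hc hc'
      obtain ⟨T, h⟩ := H217.compare hc' (hmd c hc hc') hT hT'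
      exact ⟨T, fun z hz hz5 => ⟨(h z hz.le hz5).1, (h z hz.le hz5).2.1,
        (h z hz.le hz5).2.2.1.trans (by norm_num)⟩⟩
    cmp0 := by
      intro a ha ha4
      obtain ⟨c', hc'0, h⟩ := H217.compare_zero D ha ha4 (ε := a / 8) (by positivity)
      refine ⟨c', hc'0, fun c hc hcc hc₀ => ?_⟩
      obtain ⟨-, T₀, hT, hT'⟩ := hEf c hc hc₀
      obtain ⟨T, h2⟩ := (h c hcc).2 (Ef c) (hmd c hc hc₀) T₀ hT hT'
      exact ⟨T, fun z hz hz5 => ⟨(h2 z hz.le hz5).2.1, (h2 z hz.le hz5).2.2.1,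
        (h2 z hz.le hz5).2.2.2.1⟩⟩
    surj := by
      intro c hc hc' t ht ht'
      obtain ⟨-, T₀, hT, hT'⟩ := hEf c hc hc'
      obtain ⟨z, hz, hz'⟩ := H217.compare_surj hc' (hmd c hc hc') hT hT' ht ht'
      exact ⟨z, hz.trans (by norm_num), hz'⟩
    inj := by
      intro c₁ c₂ h1 h1' h2 h2' z₁ z₂ hz₁ hz₂ h
      obtain ⟨g1, T₁, hT₁, hT₁'⟩ := hEf c₁ h1 h1'
      obtain ⟨g2, T₂, hT₂, hT₂'⟩ := hEf c₂ h2 h2'
      exact H217.inj (norm_pos_iff.1 h1) (norm_pos_iff.1 h2) h1' h2' g1 g2 hT₁ hT₂ hT₁' hT₂'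
        hz₁ hz₂ h }

/-- the leaf theorem, in any universe -/
theorem leafOut (D : LeafIn M) : Nonempty (LeafOut D) := by
  obtain ⟨Ef, P⟩ := exists_pack D
  exact ⟨P.out⟩

/-- **The leaf theorem.** -/
theorem leaf : LeafThm := by
  intro M _ _ _ _ D
  exact leafOut D

end Vale.Agent.P267.H714
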