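import Vale.Agent.P267.H714.NF
import Vale.Agent.P267.H759.RawA

/-!
# `NFThm` of H759/RawA
-/

namespace Vale.Agent.P267.H714

theorem nfThm : Vale.Agent.P267.H759.NFThm :=
  fun U a b u v m μ hU h0 hm ha hb hu hv ha0 hb0 hu0 hv0 hi =>
    nf U a b u v m μ hU h0 hm ha hb hu hv ha0 hb0 hu0 hv0 hi

end Vale.Agent.P267.H714
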