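import Vale.Agent.P267.H399.Wirt
import Vale.Agent.P281.MF.Hol
import Vale.Agent.P267.H714.Flow

/-!
# Leaf theorem (LeafThm of H759/LeafIface): holomorphic charts, determinants, identity theorem
-/

open Set Filter Metric
open scoped Topology Manifold ContDiff

noncomputable section

namespace Vale.Agent.P267.H714

open Vale.Agent.P267.FL

/-! ### the symplectic form of `ℂ²` -/

/-- `dx_0 ∧ dx_1` -/
def wd (v u : C2) : ℂ := v 0 * u 1 - v 1 * u 0

theorem wd_self (v : C2) : wd v v = 0 := by simp [wd, mul_comm]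

theorem wd_smul_left (c : ℂ) (v u : C2) : wd (c • v) u = c * wd v u := by
  simp [wd]; ring

theorem wd_smul_right (c : ℂ) (v u : C2) : wd v (c • u) = c * wd v u := by
  simp [wd]; ring

theorem wd_add_left (v v' u : C2) : wd (v + v') u = wd v u + wd v' u := by
  simp [wd]; ring

theorem wd_add_right (v u u' : C2) : wd v (u + u') = wd v u + wd v u' := by
  simp [wd]; ring

/-- two vectors with `wd v u = 0`, `v ≠ 0` are proportional -/
theorem exists_smul_of_wd {v u : C2} (hv : v ≠ 0) (h : wd v u = 0) : ∃ c : ℂ, u = c • v := by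
  unfold wd at h
  by_cases h0 : v 0 = 0
  · have h1 : v 1 ≠ 0 := by
      intro h1
      apply hv
      ext i
      fin_cases i
      · exact h0
      · exact h1
    refine ⟨u 1 / v 1, ?_⟩
    rw [h0, zero_mul, zero_sub, neg_eq_zero] at h
    have h2 : u 0 = 0 := (mul_eq_zero.1 h).resolve_left h1
    ext i
    fin_cases i
    · simp [h0, h2]
    · simp [h1]
  · refine ⟨u 0 / v 0, ?_⟩
    ext i
    fin_cases i
    · simp [h0]
    · simp only [Fin.mk_one, Fin.isValue, Pi.smul_apply, smul_eq_mul]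
      field_simp
      linear_combination h

theorem eq_zero_of_wd {v : C2} (h : ∀ u, wd v u = 0) : v = 0 := by
  ext i
  fin_cases i
  · have := h (Pi.single 1 1)
    simpa [wd] using this
  · have := h (Pi.single 0 1)
    simpa [wd] using this

theorem clm_c2 (A : C2 →L[ℂ] C2) (v : C2) :
    A v = v 0 • A (Pi.single 0 1) + v 1 • A (Pi.single 1 1) := by
  conv_lhs => rw [c2_decomp v, map_add, map_smul, map_smul]

theorem det_c2 (A : C2 →L[ℂ] C2) : A.det = wd (A (Pi.single 0 1)) (A (Pi.single 1 1)) := by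
  have h1 : A.det = LinearMap.det (A : C2 →ₗ[ℂ] C2) := rfl
  rw [h1, ← LinearMap.det_toMatrix', Matrix.det_fin_two]
  simp only [LinearMap.toMatrix'_apply, wd]
  simp
  ring

theorem wd_clm (A : C2 →L[ℂ] C2) (v u : C2) : wd (A v) (A u) = A.det * wd v u := by
  rw [det_c2, clm_c2 A v, clm_c2 A u]
  simp only [wd, Pi.add_apply, Pi.smul_apply, smul_eq_mul]
  ring

theorem det_comp (A B : C2 →L[ℂ] C2) : (A.comp B).det = A.det * B.det := by
  have : ((A.comp B : C2 →L[ℂ] C2) : C2 →ₗ[ℂ] C2) = (A : C2 →ₗ[ℂ] C2) ∘ₗ (B : C2 →ₗ[ℂ] C2) := rfl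
  show LinearMap.det ((A.comp B : C2 →L[ℂ] C2) : C2 →ₗ[ℂ] C2) = _
  rw [this, LinearMap.det_comp]

theorem det_id : (ContinuousLinearMap.id ℂ C2).det = 1 := by
  show LinearMap.det ((ContinuousLinearMap.id ℂ C2 : C2 →L[ℂ] C2) : C2 →ₗ[ℂ] C2) = 1
  exact LinearMap.det_id

/-! ### holomorphic charts -/

section charts

variable {M : Type*} [TopologicalSpace M] [ChartedSpace C2 M]

/-- holomorphic charts (not necessarily in the atlas) -/
abbrev HC (e : Ch M) : Prop := OpenPartialHomeomorph.MDifferentiable 𝓘(ℂ, C2) 𝓘(ℂ, C2) e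

theorem hc_chart [IsManifold 𝓘(ℂ, C2) ω M] (y : M) : HC (chartAt C2 y) := mdifferentiable_chart y

theorem hc_atlas [IsManifold 𝓘(ℂ, C2) ω M] {e : Ch M} (he : e ∈ atlas C2 M) : HC e :=
  mdifferentiable_of_mem_atlas he

/-- a function in a holomorphic chart -/
theorem HC.diff_fun {e : Ch M} (he : HC e) {y : M} (hy : y ∈ e.source) {f : M → ℂ}
    (hf : MDifferentiableAt 𝓘(ℂ, C2) 𝓘(ℂ) f y) :
    DifferentiableAt ℂ (fun x => f (e.symm x)) (e y) := by
  have h1 : MDifferentiableAt 𝓘(ℂ, C2) 𝓘(ℂ, C2) e.symm (e y) :=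
    he.mdifferentiableAt_symm (e.map_source hy)
  have h2 : MDifferentiableAt 𝓘(ℂ, C2) 𝓘(ℂ) f (e.symm (e y)) := by rwa [e.left_inv hy]
  exact (MDifferentiableAt.comp (e y) h2 h1).differentiableAt

/-- change of holomorphic charts -/
theorem HC.diff_trans {e e' : Ch M} (he : HC e) (he' : HC e') {y : M} (hy : y ∈ e.source)
    (hy' : y ∈ e'.source) : DifferentiableAt ℂ (fun x => e' (e.symm x)) (e y) := by
  have h1 : MDifferentiableAt 𝓘(ℂ, C2) 𝓘(ℂ, C2) e.symm (e y) :=
    he.mdifferentiableAt_symm (e.map_source hy)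
  have h2 : MDifferentiableAt 𝓘(ℂ, C2) 𝓘(ℂ, C2) e' (e.symm (e y)) := by
    rw [e.left_inv hy]; exact he'.mdifferentiableAt hy'
  exact (MDifferentiableAt.comp (e y) h2 h1).differentiableAt

/-- derivative of the change of coordinates from `e` to `e'` at `y` -/
def tr (e e' : Ch M) (y : M) : C2 →L[ℂ] C2 := fderiv ℂ (fun x => e' (e.symm x)) (e y)

omit [ChartedSpace C2 M] in
theorem near_symm {e : Ch M} {y : M} (hy : y ∈ e.source) {P : M → Prop} (hP : ∀ᶠ x in 𝓝 y, P x) :
    ∀ᶠ x in 𝓝 (e y), P (e.symm x) := by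
  have h1 : ContinuousAt e.symm (e y) := e.continuousAt_symm (e.map_source hy)
  rw [ContinuousAt, e.left_inv hy] at h1
  exact h1.eventually hP

theorem tr_trans {e e' e'' : Ch M} (he : HC e) (he' : HC e') (he'' : HC e'') {y : M}
    (hy : y ∈ e.source) (hy' : y ∈ e'.source) (hy'' : y ∈ e''.source) :
    (tr e' e'' y).comp (tr e e' y) = tr e e'' y := by
  have h1 : HasFDerivAt (fun x => e' (e.symm x)) (tr e e' y) (e y) :=
    (he.diff_trans he' hy hy').hasFDerivAt
  have h2 : HasFDerivAt (fun x => e'' (e'.symm x)) (tr e' e'' y) (e' (e.symm (e y))) := by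
    rw [e.left_inv hy]
    exact (he'.diff_trans he'' hy' hy'').hasFDerivAt
  have h3 := h2.comp (e y) h1
  refine (HasFDerivAt.fderiv (h3.congr_of_eventuallyEq ?_)).symm
  filter_upwards [near_symm hy (e'.open_source.mem_nhds hy')] with x hx
  simp only [Function.comp_apply]
  rw [e'.left_inv hx]

theorem tr_self {e : Ch M} (he : HC e) {y : M} (hy : y ∈ e.source) :
    tr e e y = ContinuousLinearMap.id ℂ C2 := by
  refine HasFDerivAt.fderiv ((hasFDerivAt_id (e y)).congr_of_eventuallyEq ?_)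
  filter_upwards [e.open_target.mem_nhds (e.map_source hy)] with x hx
  rw [e.right_inv hx]; rfl

theorem tr_inv {e e' : Ch M} (he : HC e) (he' : HC e') {y : M}
    (hy : y ∈ e.source) (hy' : y ∈ e'.source) (v : C2) : tr e' e y (tr e e' y v) = v := by
  have h := tr_trans he he' he hy hy' hy
  rw [tr_self he hy] at h
  exact congrArg (fun A : C2 →L[ℂ] C2 => A v) h

theorem det_tr_ne {e e' : Ch M} (he : HC e) (he' : HC e') {y : M}
    (hy : y ∈ e.source) (hy' : y ∈ e'.source) : (tr e e' y).det ≠ 0 := by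
  have h := tr_trans he he' he hy hy' hy
  rw [tr_self he hy] at h
  have h2 := congrArg ContinuousLinearMap.det h
  rw [det_comp, det_id] at h2
  exact right_ne_zero_of_mul (h2.symm ▸ one_ne_zero)

/-- a curve in two holomorphic charts -/
theorem deriv_trans {e e' : Ch M} (he : HC e) (he' : HC e') {E : ℂ → M} {z : ℂ}
    (hE : MDifferentiableAt 𝓘(ℂ) 𝓘(ℂ, C2) E z) (hy : E z ∈ e.source) (hy' : E z ∈ e'.source) :
    deriv (fun w => e' (E w)) z = tr e e' (E z) (deriv (fun w => e (E w)) z) := by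
  have h1 : DifferentiableAt ℂ (fun w => e (E w)) z :=
    (MDifferentiableAt.comp z (he.mdifferentiableAt hy) hE).differentiableAt
  have h2 : HasFDerivAt (fun x => e' (e.symm x)) (tr e e' (E z)) (e (E z)) :=
    (he.diff_trans he' hy hy').hasFDerivAt
  have h3 := h2.comp_hasDerivAt z h1.hasDerivAt
  refine HasDerivAt.deriv (h3.congr_of_eventuallyEq ?_)
  filter_upwards [hE.continuousAt.eventually (e.open_source.mem_nhds hy)] with w hw
  simp only [Function.comp_apply]
  rw [e.left_inv hw]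

theorem diff_curve {e : Ch M} (he : HC e) {E : ℂ → M} {z : ℂ}
    (hE : MDifferentiableAt 𝓘(ℂ) 𝓘(ℂ, C2) E z) (hy : E z ∈ e.source) :
    DifferentiableAt ℂ (fun w => e (E w)) z :=
  (MDifferentiableAt.comp z (he.mdifferentiableAt hy) hE).differentiableAt

theorem mdiff_curve {e : Ch M} (he : HC e) {x : ℂ → C2} {z : ℂ} (hx : DifferentiableAt ℂ x z)
    (hm : x z ∈ e.target) : MDifferentiableAt 𝓘(ℂ) 𝓘(ℂ, C2) (fun w => e.symm (x w)) z :=
  MDifferentiableAt.comp z (he.mdifferentiableAt_symm hm) hx.mdifferentiableAt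

/-- differential of a function in two charts -/
theorem fderiv_trans {e e' : Ch M} (he : HC e) (he' : HC e') {y : M} {f : M → ℂ}
    (hf : MDifferentiableAt 𝓘(ℂ, C2) 𝓘(ℂ) f y) (hy : y ∈ e.source) (hy' : y ∈ e'.source) :
    fderiv ℂ (fun x => f (e.symm x)) (e y) =
      (fderiv ℂ (fun x => f (e'.symm x)) (e' y)).comp (tr e e' y) := by
  have h1 : HasFDerivAt (fun x => e' (e.symm x)) (tr e e' y) (e y) :=
    (he.diff_trans he' hy hy').hasFDerivAt
  have h2 : HasFDerivAt (fun x => f (e'.symm x)) (fderiv ℂ (fun x => f (e'.symm x)) (e' y))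
      (e' (e.symm (e y))) := by
    rw [e.left_inv hy]
    exact (he'.diff_fun hy' hf).hasFDerivAt
  have h3 := h2.comp (e y) h1
  refine HasFDerivAt.fderiv (h3.congr_of_eventuallyEq ?_)
  filter_upwards [near_symm hy (e'.open_source.mem_nhds hy')] with x hx
  simp only [Function.comp_apply]
  rw [e'.left_inv hx]

/-- the Jacobian determinant of 399 -/
theorem det_jac [IsManifold 𝓘(ℂ, C2) ω M] {e : Ch M} (he : HC e) {y : M} (hy : y ∈ e.source) :
    (jac e y).det = (tr e (chartAt C2 y) y).det := by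
  have h0 : DifferentiableAt ℂ (fun x => (chartAt C2 y) (e.symm x)) (e y) :=
    he.diff_trans (hc_chart y) hy (mem_chart_source C2 y)
  have h1 : ∀ p i, jac e y p i = tr e (chartAt C2 y) y (Pi.single i 1) p := by
    intro p i
    simp only [jac, jacM, Matrix.of_apply, tr]
    have h2 : DifferentiableAt ℂ (fun x => (chartAt C2 y) (e.symm x) p) (e y) :=
      (ContinuousLinearMap.proj (R := ℂ) (φ := fun _ : Fin 2 => ℂ) p).differentiableAt.comp _ h0
    rw [dz_of_hol h2]
    have h3 : fderiv ℂ (fun x => (chartAt C2 y) (e.symm x) p) (e y) =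
        (ContinuousLinearMap.proj (R := ℂ) (φ := fun _ : Fin 2 => ℂ) p).comp
          (fderiv ℂ (fun x => (chartAt C2 y) (e.symm x)) (e y)) :=
      ((ContinuousLinearMap.proj (R := ℂ) (φ := fun _ : Fin 2 => ℂ) p).hasFDerivAt.comp _
        h0.hasFDerivAt).fderiv
    rw [h3]; rfl
  rw [Matrix.det_fin_two, det_c2, wd, h1, h1, h1, h1]
  ring

end charts

/-! ### identity theorem for curves in a complex surface -/

section ident

variable {M : Type*} [TopologicalSpace M] [ChartedSpace C2 M] [IsManifold 𝓘(ℂ, C2) ω M]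

omit [IsManifold 𝓘(ℂ, C2) ω M] in
theorem analyticAt_curve {U : Set ℂ} (hU : IsOpen U) {E : ℂ → M}
    (hE : MDifferentiableOn 𝓘(ℂ) 𝓘(ℂ, C2) E U) {z : ℂ} (hz : z ∈ U) {e : Ch M} (he : HC e)
    (hy : E z ∈ e.source) : AnalyticAt ℂ (fun w => e (E w)) z := by
  have hEat : ∀ w ∈ U, MDifferentiableAt 𝓘(ℂ) 𝓘(ℂ, C2) E w := fun w hw =>
    hE.mdifferentiableAt (hU.mem_nhds hw)
  have h0 : ∀ᶠ w in 𝓝 z, w ∈ U := hU.mem_nhds hz
  have h1 : ∀ᶠ w in 𝓝 z, w ∈ U ∧ E w ∈ e.source :=
    h0.and ((hEat z hz).continuousAt.eventually (e.open_source.mem_nhds hy))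
  obtain ⟨s, hs, hso, hzs⟩ := _root_.eventually_nhds_iff.1 h1
  have h2 : DifferentiableOn ℂ (fun w => e (E w)) s := fun w hw =>
    (diff_curve he (hEat w (hs w hw).1) (hs w hw).2).differentiableWithinAt
  exact h2.analyticAt (hso.mem_nhds hzs)

/-- **identity theorem** -/
theorem eqOn_of_eventuallyEq [T2Space M] {U : Set ℂ} (hU : IsOpen U) (hc : IsPreconnected U)
    {E F : ℂ → M} (hE : MDifferentiableOn 𝓘(ℂ) 𝓘(ℂ, C2) E U)
    (hF : MDifferentiableOn 𝓘(ℂ) 𝓘(ℂ, C2) F U) {z₀ : ℂ} (hz₀ : z₀ ∈ U) (h : E =ᶠ[𝓝 z₀] F) :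
    EqOn E F U := by
  set S : Set ℂ := {z | E =ᶠ[𝓝 z] F} with hS
  have hSo : IsOpen S := by
    rw [isOpen_iff_mem_nhds]
    intro z hz
    exact (eventually_eventually_nhds.2 hz : ∀ᶠ y in 𝓝 z, E =ᶠ[𝓝 y] F)
  have hcl : ∀ z ∈ U, z ∈ closure S → z ∈ S := by
    intro z hz hzS
    have hfr : ∃ᶠ w in 𝓝[≠] z, E w = F w := by
      rw [frequently_iff]
      intro V hV
      rw [mem_nhdsWithin] at hV
      obtain ⟨O, hO, hzO, hOV⟩ := hV
      obtain ⟨s, hsO, hsS⟩ := mem_closure_iff.1 hzS O hO hzO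
      have h1 : ∀ᶠ w in 𝓝 s, E w = F w ∧ w ∈ O := (hsS : E =ᶠ[𝓝 s] F).and (hO.mem_nhds hsO)
      by_cases hsz : s = z
      · have h2 : ∀ᶠ w in 𝓝[≠] s, (E w = F w ∧ w ∈ O) ∧ w ∈ ({s}ᶜ : Set ℂ) :=
          (h1.filter_mono nhdsWithin_le_nhds).and self_mem_nhdsWithin
        obtain ⟨w, ⟨hw1, hw2⟩, hw3⟩ := h2.exists
        exact ⟨w, hOV ⟨hw2, by rw [← hsz]; exact hw3⟩, hw1⟩
      · exact ⟨s, hOV ⟨hsO, hsz⟩, h1.self_of_nhds.1⟩
    have hEc := (hE.mdifferentiableAt (hU.mem_nhds hz)).continuousAt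
    have hFc := (hF.mdifferentiableAt (hU.mem_nhds hz)).continuousAt
    have heq : E z = F z :=
      tendsto_nhds_unique_of_frequently_eq (hEc.tendsto) (hFc.tendsto)
        (hfr.filter_mono nhdsWithin_le_nhds)
    set e := chartAt C2 (E z) with he
    have hy : E z ∈ e.source := mem_chart_source C2 _
    have hy' : F z ∈ e.source := by rw [← heq]; exact hy
    have a1 := analyticAt_curve hU hE hz (hc_chart (E z)) hy
    have a2 := analyticAt_curve hU hF hz (hc_chart (E z)) hy'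
    have h3 := (a1.frequently_eq_iff_eventually_eq a2).1
      (hfr.mono fun w hw => by show e (E w) = e (F w); rw [hw])
    show E =ᶠ[𝓝 z] F
    filter_upwards [h3, hEc.eventually (e.open_source.mem_nhds hy),
      hFc.eventually (e.open_source.mem_nhds hy')] with w h4 h5 h6
    exact e.injOn h5 h6 h4
  have hsub : U ⊆ S := by
    refine hc.subset_of_closure_inter_subset hSo ⟨z₀, hz₀, h⟩ ?_
    rintro z ⟨h1, h2⟩
    exact hcl z h2 h1
  exact fun z hz => (hsub hz : E =ᶠ[𝓝 z] F).self_of_nhds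

end ident

end Vale.Agent.P267.H714
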