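import Vale.Agent.P267.H714.Joint
import Vale.Agent.P267.H615.Ext

/-!
# From the family of solutions to coordinates (for LeafThm)
-/

open Set Filter Metric
open scoped Topology Manifold ContDiff NNReal

noncomputable section

namespace Vale.Agent.P267.H714

open Vale.Agent.P267.FL Vale.Agent.P267.H759

variable {M : Type*} [TopologicalSpace M] [ChartedSpace C2 M]

/-- What is known about the family of solutions. -/
structure Pack (D : LeafIn M) (Ef : ℂ → ℂ → M) : Prop where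
  good : ∀ c : ℂ, 0 < ‖c‖ → ‖c‖ < D.c₀ → Good D c (Ef c)
  start : ∀ c : ℂ, 0 < ‖c‖ → ‖c‖ < D.c₀ → JStart D c
  zz : ∀ c : ℂ, 0 < ‖c‖ → ‖c‖ < D.c₀ → ∀ z ∈ ball (1 : ℂ) 6, D.zz (Ef c z) = c ^ D.m
  esc : ∀ c : ℂ, 0 < ‖c‖ → ‖c‖ < D.c₀ → ∀ z ∈ ball (1 : ℂ) 6, ∀ x ∈ cusp D.c₀ D.δ D.μ,
    Ef c z = D.κ x → ‖x 1‖ ≤ 1 + 101 / 100 * ‖z - 1‖
  cmp : ∀ c : ℂ, 0 < ‖c‖ → ‖c‖ < D.c₀ → ∃ T : ℂ → ℂ, ∀ z, 6 / 25 < ‖z‖ → ‖z‖ < 5 →
    ![c, T z] ∈ cusp D.c₀ D.δ D.μ ∧ Ef c z = D.κ ![c, T z] ∧ ‖T z - z‖ ≤ 1 / 50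
  cmp0 : ∀ a : ℝ, 0 < a → a ≤ 1 / 4 → ∃ c' > 0, ∀ c : ℂ, 0 < ‖c‖ → ‖c‖ < c' → ‖c‖ < D.c₀ →
    ∃ T : ℂ → ℂ, ∀ z, a < ‖z‖ → ‖z‖ < 5 →
      ![c, T z] ∈ cusp D.c₀ D.δ D.μ ∧ Ef c z = D.κ ![c, T z] ∧ ‖T z - z‖ ≤ a / 8
  surj : ∀ c : ℂ, 0 < ‖c‖ → ‖c‖ < D.c₀ → ∀ t : ℂ, 7 / 20 ≤ ‖t‖ → ‖t‖ ≤ 49 / 10 →
    ∃ z, ‖z - t‖ ≤ 1 / 50 ∧ Ef c z = D.κ ![c, t]
  inj : ∀ c₁ c₂ : ℂ, 0 < ‖c₁‖ → ‖c₁‖ < D.c₀ → 0 < ‖c₂‖ → ‖c₂‖ < D.c₀ → ∀ z₁ z₂ : ℂ,
    ‖z₁‖ < 5 → ‖z₂‖ < 5 → Ef c₁ z₁ = Ef c₂ z₂ → c₁ = c₂ ∧ z₁ = z₂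

/-- inverse function theorem for maps into a surface -/
theorem local_inverse {Θ : C2 → M} {x : C2}
    (hΘ : ∀ᶠ x' in 𝓝 x, MDifferentiableAt 𝓘(ℂ, C2) 𝓘(ℂ, C2) Θ x') {e : Ch M} (he : HC e)
    (hx : Θ x ∈ e.source) (hinj : ∀ v, fderiv ℂ (fun x => e (Θ x)) x v = 0 → v = 0) :
    map Θ (𝓝 x) = 𝓝 (Θ x) ∧ ∀ Θi : M → C2, (∀ᶠ x' in 𝓝 x, Θi (Θ x') = x') →
      MDifferentiableAt 𝓘(ℂ, C2) 𝓘(ℂ, C2) Θi (Θ x) := by
  set Q : C2 → C2 := fun x => e (Θ x) with hQ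
  have hΘc : ContinuousAt Θ x := hΘ.self_of_nhds.continuousAt
  have hev : ∀ᶠ x' in 𝓝 x, MDifferentiableAt 𝓘(ℂ, C2) 𝓘(ℂ, C2) Θ x' ∧ Θ x' ∈ e.source :=
    hΘ.and (hΘc.eventually (e.open_source.mem_nhds hx))
  obtain ⟨O, hO, hOo, hxO⟩ := _root_.eventually_nhds_iff.1 hev
  have hQd : DifferentiableOn ℂ Q O := fun x' hx' =>
    (MDifferentiableAt.comp x' (he.mdifferentiableAt (hO x' hx').2)
      (hO x' hx').1).differentiableAt.differentiableWithinAt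
  have hQc : ContDiffAt ℂ 1 Q x :=
    (Vale.Agent.P281.MF.contDiffOn_of_differentiableOn hOo hQd 1).contDiffAt (hOo.mem_nhds hxO)
  have hinj' : Function.Injective (fderiv ℂ Q x : C2 →ₗ[ℂ] C2) := by
    rw [← LinearMap.ker_eq_bot, LinearMap.ker_eq_bot']
    exact hinj
  let A : C2 ≃L[ℂ] C2 :=
    (LinearEquiv.ofInjectiveEndo (fderiv ℂ Q x : C2 →ₗ[ℂ] C2) hinj').toContinuousLinearEquiv
  have hA : (A : C2 →L[ℂ] C2) = fderiv ℂ Q x := by
    ext v : 1; rfl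
  have hstrict : HasStrictFDerivAt Q (A : C2 →L[ℂ] C2) x := by
    rw [hA]; exact hQc.hasStrictFDerivAt (by norm_num)
  have hmapQ : map Q (𝓝 x) = 𝓝 (Q x) := hstrict.map_nhds_eq_of_equiv
  have hQt : Q x ∈ e.target := e.map_source hx
  have hmape : map e.symm (𝓝 (Q x)) = 𝓝 (Θ x) := by
    have h1 := e.symm.map_nhds_eq (x := Q x) (by simpa using hQt)
    have h2 : e.symm (Q x) = Θ x := e.left_inv hx
    rwa [h2] at h1
  have hΘe : Θ =ᶠ[𝓝 x] fun x => e.symm (Q x) := by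
    filter_upwards [hev] with x' hx'
    exact (e.left_inv hx'.2).symm
  refine ⟨?_, fun Θi hi => ?_⟩
  · rw [← hmape, ← hmapQ, map_map]
    exact map_congr hΘe
  · set g : C2 → C2 := fun w => Θi (e.symm w) with hg
    have hgQ : ∀ᶠ x' in 𝓝 x, g (Q x') = x' := by
      filter_upwards [hi, hΘe] with x' h1 h2
      show Θi (e.symm (Q x')) = x'
      rw [← h2, h1]
    have hgx : g (Q x) = x := hgQ.self_of_nhds
    have hgc : ContinuousAt g (Q x) := by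
      show map g (𝓝 (Q x)) ≤ 𝓝 (g (Q x))
      rw [hgx, ← hmapQ, map_map]
      exact (map_congr (f := 𝓝 x) (m₁ := g ∘ Q) (m₂ := id) hgQ).le.trans (by rw [map_id])
    have hfg : ∀ᶠ w in 𝓝 (Q x), Q (g w) = w := by
      rw [← hmapQ, eventually_map]
      filter_upwards [hgQ] with x' h1
      rw [h1]
    have hf' : HasFDerivAt Q (A : C2 →L[ℂ] C2) (g (Q x)) := by
      rw [hgx]; exact hstrict.hasFDerivAt
    have key : DifferentiableAt ℂ g (Q x) :=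
      (HasFDerivAt.of_local_left_inverse hgc hf' hfg).differentiableAt
    have h1 : MDifferentiableAt 𝓘(ℂ, C2) 𝓘(ℂ, C2) (fun y => g (e y)) (Θ x) :=
      MDifferentiableAt.comp (Θ x) (g := g) key.mdifferentiableAt (he.mdifferentiableAt hx)
    refine h1.congr_of_eventuallyEq ?_
    filter_upwards [e.open_source.mem_nhds hx] with y hy
    show Θi y = Θi (e.symm (e y))
    rw [e.left_inv hy]

/-- the coordinates on `Y` -/
def Th (D : LeafIn M) (Ef : ℂ → ℂ → M) (x : C2) : M := if x 0 = 0 then D.κ x else Ef (x 0) (x 1)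

variable {D : LeafIn M} {Ef : ℂ → ℂ → M}

theorem Th_zero {x : C2} (h : x 0 = 0) : Th D Ef x = D.κ x := by simp [Th, h]

theorem Th_ne {x : C2} (h : x 0 ≠ 0) : Th D Ef x = Ef (x 0) (x 1) := by simp [Th, h]

theorem mem_ball_six {z : ℂ} (h : ‖z‖ < 5) : z ∈ ball (1 : ℂ) 6 := by
  rw [mem_ball, dist_eq_norm]
  have := norm_sub_le z 1
  rw [norm_one] at this
  linarith

theorem zero_mem_cusp {x : C2} (h0 : x 0 = 0) (h1 : x 1 ≠ 0) (h8 : ‖x 1‖ < 8) :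
    x ∈ cusp D.c₀ D.δ D.μ := by
  have hp : 0 < ‖x 1‖ := norm_pos_iff.2 h1
  have := D.c₀_pos
  have := D.δ_pos
  refine ⟨by rw [h0, norm_zero]; assumption, hp, h8, ?_⟩
  rw [h0, norm_zero]
  positivity

theorem ne_zero_of_pbd {x : C2} (hx : x ∈ pbd D.c₀) (h0 : x 0 = 0) : x 1 ≠ 0 := by
  intro h1
  apply hx.1
  ext i
  fin_cases i
  · exact h0
  · exact h1

theorem Pack.sol (P : Pack D Ef) {c : ℂ} (hc : 0 < ‖c‖) (hc' : ‖c‖ < D.c₀) {z : ℂ} (hz : ‖z‖ < 5) :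
    SolAt D (rho D c) (Ef c) z := (P.good c hc hc').1 z (mem_ball_six hz)

variable [T2Space M] [IsManifold 𝓘(ℂ, C2) ω M]

/-- holomorphy off `x 0 = 0` -/
theorem Pack.hol_ne (P : Pack D Ef) {x : C2} (h0 : x 0 ≠ 0) (h1 : ‖x 0‖ < D.c₀) (h2 : ‖x 1‖ < 5) :
    ∀ᶠ x' in 𝓝 x, MDifferentiableAt 𝓘(ℂ, C2) 𝓘(ℂ, C2) (Th D Ef) x' := by
  have hc : 0 < ‖x 0‖ := norm_pos_iff.2 h0
  have h3 := joint P.good hc h1 (P.start _ hc h1) (mem_ball_six h2)
  rw [vec_eq] at h3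
  have h4 : ∀ᶠ x' : C2 in 𝓝 x, x' 0 ≠ 0 :=
    ((continuous_apply 0).continuousAt (x := x)).eventually_ne h0
  filter_upwards [h3, eventually_eventually_nhds.2 h4] with x' h5 h6
  refine h5.congr_of_eventuallyEq ?_
  filter_upwards [h6] with x'' h7
  exact Th_ne h7

/-- the differential is injective off `x 0 = 0` -/
theorem Pack.inj_ne (P : Pack D Ef) {x : C2} (h0 : x 0 ≠ 0) (h1 : ‖x 0‖ < D.c₀) (h2 : ‖x 1‖ < 5)
    (v : C2) (hv : fderiv ℂ (fun x' => chartAt C2 (Th D Ef x) (Th D Ef x')) x v = 0) : v = 0 := by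
  have hc : 0 < ‖x 0‖ := norm_pos_iff.2 h0
  set e := chartAt C2 (Th D Ef x) with he
  have hec : HC e := hc_chart _
  have hsrc : Th D Ef x ∈ e.source := mem_chart_source C2 _
  have hTh : Th D Ef x = Ef (x 0) (x 1) := Th_ne h0
  have hsol := P.sol hc h1 h2
  have hY : Th D Ef x ∈ D.Y := by rw [hTh]; exact hsol.mem
  have hM : MDifferentiableAt 𝓘(ℂ, C2) 𝓘(ℂ, C2) (Th D Ef) x := (P.hol_ne h0 h1 h2).self_of_nhds
  have hQd : DifferentiableAt ℂ (fun x' => e (Th D Ef x')) x :=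
    (MDifferentiableAt.comp x (hec.mdifferentiableAt hsrc) hM).differentiableAt
  -- `zz ∘ Θ = x₀ ^ m`
  have hzz : HasFDerivAt (fun w => D.zz (e.symm w)) (dzz D e (Th D Ef x)) (e (Th D Ef x)) :=
    (hec.diff_fun hsrc (D.zz_hol _ hY)).hasFDerivAt
  have hcomp := hzz.comp x hQd.hasFDerivAt
  have hev : ∀ᶠ x' : C2 in 𝓝 x, x' 0 ≠ 0 ∧ ‖x' 0‖ < D.c₀ ∧ ‖x' 1‖ < 5 ∧
      Th D Ef x' ∈ e.source := by
    have c0 : ContinuousAt (fun x : C2 => x 0) x := (continuous_apply 0).continuousAt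
    have c1 : ContinuousAt (fun x : C2 => x 1) x := (continuous_apply 1).continuousAt
    exact (c0.eventually_ne h0).and ((c0.norm.eventually (gt_mem_nhds h1)).and
      ((c1.norm.eventually (gt_mem_nhds h2)).and
        (hM.continuousAt.eventually (e.open_source.mem_nhds hsrc))))
  have hpow : (fun x' : C2 => x' 0 ^ D.m) =ᶠ[𝓝 x]
      (fun w => D.zz (e.symm w)) ∘ fun x' => e (Th D Ef x') := by
    filter_upwards [hev] with x' hx'
    simp only [Function.comp_apply]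
    rw [e.left_inv hx'.2.2.2, Th_ne hx'.1,
      P.zz _ (norm_pos_iff.2 hx'.1) hx'.2.1 _ (mem_ball_six hx'.2.2.1)]
  have hpd : HasFDerivAt (fun x' : C2 => x' 0 ^ D.m)
      ((D.m * x 0 ^ (D.m - 1)) • (ContinuousLinearMap.proj (R := ℂ) (φ := fun _ : Fin 2 => ℂ) 0 :
        C2 →L[ℂ] ℂ)) x := by
    have h3 : HasFDerivAt (fun x' : C2 => x' 0)
      (ContinuousLinearMap.proj (R := ℂ) (φ := fun _ : Fin 2 => ℂ) 0 : C2 →L[ℂ] ℂ) x :=
      (ContinuousLinearMap.proj (R := ℂ) (φ := fun _ : Fin 2 => ℂ) 0).hasFDerivAt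
    exact (hasDerivAt_pow D.m (x 0)).comp_hasFDerivAt x h3
  have heq := (hcomp.congr_of_eventuallyEq hpow).unique hpd
  have h4 := congrArg (fun L : C2 →L[ℂ] ℂ => L v) heq
  simp only [ContinuousLinearMap.comp_apply, smul_apply, smul_eq_mul,
    ContinuousLinearMap.proj_apply] at h4
  rw [hv, map_zero] at h4
  have hm : (D.m : ℂ) * x 0 ^ (D.m - 1) ≠ 0 :=
    mul_ne_zero (Nat.cast_ne_zero.2 D.m_pos.ne') (pow_ne_zero _ h0)
  have hv0 : v 0 = 0 := (mul_eq_zero.1 h4.symm).resolve_left hm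
  -- the other component
  have hv1 : v = v 1 • (Pi.single 1 (1 : ℂ) : C2) := by
    conv_lhs => rw [c2_decomp v, hv0, zero_smul, zero_add]
  have hder : HasDerivAt (fun w => e (Ef (x 0) w))
      (fderiv ℂ (fun x' => e (Th D Ef x')) x (Pi.single 1 1)) (x 1) := by
    have h5 : HasFDerivAt (fun x' => e (Th D Ef x')) (fderiv ℂ (fun x' => e (Th D Ef x')) x)
        ![x 0, x 1] := by rw [vec_eq]; exact hQd.hasFDerivAt
    have h6 := h5.comp_hasDerivAt (x 1) (hasDerivAt_vec1 (x 0) (x 1))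
    refine h6.congr_of_eventuallyEq (Eventually.of_forall fun w => ?_)
    show e (Ef (x 0) w) = e (Th D Ef ![x 0, w])
    rw [Th_ne (x := ![x 0, w]) h0]
    rfl
  have hne : fderiv ℂ (fun x' => e (Th D Ef x')) x (Pi.single 1 1) ≠ 0 := by
    rw [← hder.deriv]
    refine hsol.deriv_ne hec ?_
    rw [← hTh]; exact hsrc
  rw [hv1, map_smul] at hv
  rw [hv1, (smul_eq_zero.1 hv).resolve_right hne, zero_smul]

/-- `Θ` near a point `(0, t)` -/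
theorem Pack.near_zero (P : Pack D Ef) {x₁ : C2} (h0 : x₁ 0 = 0) (h1 : x₁ 1 ≠ 0) (h5 : ‖x₁ 1‖ < 5) :
    ∃ O : Set C2, IsOpen O ∧ x₁ ∈ O ∧
      (∀ x ∈ O, D.κi (Th D Ef x) ∈ cusp D.c₀ D.δ D.μ ∧ D.κ (D.κi (Th D Ef x)) = Th D Ef x ∧
        D.κi (Th D Ef x) 0 = x 0) ∧ (∀ x ∈ O, x 0 = 0 → D.κi (Th D Ef x) = x) ∧
      DifferentiableOn ℂ (fun x => D.κi (Th D Ef x)) O := by
  have ht : 0 < ‖x₁ 1‖ := norm_pos_iff.2 h1
  set a : ℝ := min (‖x₁ 1‖ / 2) (1 / 4) with ha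
  have ha0 : 0 < a := lt_min (by positivity) (by norm_num)
  obtain ⟨c', hc'0, hc'⟩ := P.cmp0 a ha0 (min_le_right _ _)
  set O : Set C2 := {x | ‖x 0‖ < c' ∧ ‖x 0‖ < D.c₀ ∧ a < ‖x 1‖ ∧ ‖x 1‖ < 5} with hO
  have hn0 : Continuous fun x : C2 => ‖x 0‖ := (continuous_apply 0).norm
  have hn1 : Continuous fun x : C2 => ‖x 1‖ := (continuous_apply 1).norm
  have hOo : IsOpen O := (isOpen_lt hn0 continuous_const).inter ((isOpen_lt hn0 continuous_const).inter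
    ((isOpen_lt continuous_const hn1).inter (isOpen_lt hn1 continuous_const)))
  have hx₁O : x₁ ∈ O := by
    refine ⟨by rw [h0, norm_zero]; exact hc'0, by rw [h0, norm_zero]; exact D.c₀_pos, ?_, h5⟩
    exact (min_le_left _ _).trans_lt (by linarith)
  have hz : ∀ x ∈ O, x 0 = 0 → x ∈ cusp D.c₀ D.δ D.μ := by
    intro x hx hx0
    exact zero_mem_cusp hx0 (norm_pos_iff.1 (ha0.trans hx.2.2.1)) (by linarith [hx.2.2.2])
  have hzero : ∀ x ∈ O, x 0 = 0 → D.κi (Th D Ef x) = x := by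
    intro x hx hx0
    rw [Th_zero hx0, D.κi_κ x (hz x hx hx0)]
  have hbd : ∀ a' : ℝ, 0 < a' → a' ≤ 1 / 4 → a' ≤ a → ∃ c'' > 0, ∀ x ∈ O, ‖x 0‖ < c'' →
      D.κi (Th D Ef x) ∈ cusp D.c₀ D.δ D.μ ∧ D.κ (D.κi (Th D Ef x)) = Th D Ef x ∧
        D.κi (Th D Ef x) 0 = x 0 ∧ ‖D.κi (Th D Ef x) 1 - x 1‖ ≤ a' / 8 := by
    intro a' ha' ha'4 haa
    obtain ⟨c'', hc''0, hc''⟩ := P.cmp0 a' ha' ha'4
    refine ⟨c'', hc''0, fun x hx hxc => ?_⟩
    by_cases hx0 : x 0 = 0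
    · have h2 := hzero x hx hx0
      rw [h2]
      refine ⟨hz x hx hx0, (Th_zero hx0).symm, rfl, ?_⟩
      rw [sub_self, norm_zero]; positivity
    · obtain ⟨T, hT⟩ := hc'' (x 0) (norm_pos_iff.2 hx0) hxc hx.2.1
      obtain ⟨h2, h3, h4⟩ := hT (x 1) (haa.trans_lt hx.2.2.1) hx.2.2.2
      rw [Th_ne hx0, h3, D.κi_κ _ h2]
      exact ⟨h2, rfl, rfl, h4⟩
  have hmain : ∀ x ∈ O, D.κi (Th D Ef x) ∈ cusp D.c₀ D.δ D.μ ∧
      D.κ (D.κi (Th D Ef x)) = Th D Ef x ∧ D.κi (Th D Ef x) 0 = x 0 := by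
    intro x hx
    by_cases hx0 : x 0 = 0
    · have h2 := hzero x hx hx0
      rw [h2]
      exact ⟨hz x hx hx0, (Th_zero hx0).symm, rfl⟩
    · obtain ⟨T, hT⟩ := hc' (x 0) (norm_pos_iff.2 hx0) hx.1 hx.2.1
      obtain ⟨h2, h3, h4⟩ := hT (x 1) hx.2.2.1 hx.2.2.2
      rw [Th_ne hx0, h3, D.κi_κ _ h2]
      exact ⟨h2, rfl, rfl⟩
  -- holomorphy off the axis
  have hne : ∀ x ∈ O, x 0 ≠ 0 → DifferentiableAt ℂ (fun x => D.κi (Th D Ef x)) x := by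
    intro x hx hx0
    have h2 : Th D Ef x ∈ D.κ '' cusp D.c₀ D.δ D.μ := ⟨_, (hmain x hx).1, (hmain x hx).2.1⟩
    have h3 : MDifferentiableAt 𝓘(ℂ, C2) 𝓘(ℂ, C2) D.κi (Th D Ef x) :=
      D.κi_hol.mdifferentiableAt (D.κ_open.mem_nhds h2)
    have h4 := (P.hol_ne hx0 hx.2.1 hx.2.2.2).self_of_nhds
    exact (MDifferentiableAt.comp x h3 h4).differentiableAt
  -- continuity
  have hcont : ∀ x ∈ O, ContinuousAt (fun x => D.κi (Th D Ef x)) x := by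
    intro x hx
    by_cases hx0 : x 0 = 0
    swap
    · exact (hne x hx hx0).continuousAt
    rw [Metric.continuousAt_iff']
    intro ε hε
    rw [hzero x hx hx0]
    set a' : ℝ := min a ε with ha'
    have ha'0 : 0 < a' := lt_min ha0 hε
    obtain ⟨c'', hc''0, hc''⟩ := hbd a' ha'0 ((min_le_left _ _).trans (min_le_right _ _))
      (min_le_left _ _)
    have e1 : ∀ᶠ x' : C2 in 𝓝 x, x' ∈ O := hOo.mem_nhds hx
    have e2 : ∀ᶠ x' : C2 in 𝓝 x, ‖x' 0‖ < c'' :=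
      hn0.continuousAt.eventually (gt_mem_nhds (by show ‖x 0‖ < c''; rw [hx0, norm_zero]; exact hc''0))
    have e3 : ∀ᶠ x' : C2 in 𝓝 x, dist x' x < ε / 2 := Metric.ball_mem_nhds x (by positivity)
    filter_upwards [e1, e2, e3] with x' g1 g2 g3
    obtain ⟨-, -, k1, k2⟩ := hc'' x' g1 g2
    have k3 : dist (D.κi (Th D Ef x')) x' ≤ ε / 4 := by
      rw [dist_pi_le_iff (by positivity)]
      intro i
      fin_cases i
      · show dist (D.κi (Th D Ef x') 0) (x' 0) ≤ _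
        rw [k1, dist_self]; positivity
      · show dist (D.κi (Th D Ef x') 1) (x' 1) ≤ _
        rw [dist_eq_norm]
        have : a' ≤ ε := min_le_right _ _
        linarith
    have k4 := dist_triangle (D.κi (Th D Ef x')) x' x
    linarith
  refine ⟨O, hOo, hx₁O, hmain, hzero, fun x hx => ?_⟩
  refine DifferentiableAt.differentiableWithinAt ?_
  refine Vale.Agent.P267.H615.differentiableAt_of_continuous (g := fun x : C2 => x 0) ?_ ?_ ?_ ?_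
  · exact Eventually.of_forall fun x => by fun_prop
  · filter_upwards [hOo.mem_nhds hx] with x' hx' using hcont x' hx'
  · filter_upwards [hOo.mem_nhds hx] with x' hx' h using hne x' hx' h
  · by_cases hx0 : x 0 = 0
    swap
    · exact (((continuous_apply 0).continuousAt (x := x)).eventually_ne hx0).frequently
    · rw [Metric.nhds_basis_ball.frequently_iff]
      intro ε hε
      refine ⟨x + Pi.single 0 (((ε / 2 : ℝ)) : ℂ), ?_, ?_⟩
      · rw [mem_ball, dist_eq_norm, add_sub_cancel_left, Pi.norm_single, Complex.norm_real,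
          Real.norm_of_nonneg (by positivity)]
        linarith
      · show x 0 + (Pi.single 0 (((ε / 2 : ℝ)) : ℂ) : C2) 0 ≠ 0
        rw [hx0, zero_add, Pi.single_eq_same]
        exact_mod_cast (by positivity : (ε / 2 : ℝ) ≠ 0)

/-- holomorphy on the punctured bidisc -/
theorem Pack.hol (P : Pack D Ef) {x : C2} (hx : x ∈ pbd D.c₀) :
    ∀ᶠ x' in 𝓝 x, MDifferentiableAt 𝓘(ℂ, C2) 𝓘(ℂ, C2) (Th D Ef) x' := by
  by_cases h0 : x 0 = 0
  swap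
  · exact P.hol_ne h0 hx.2.1 hx.2.2
  obtain ⟨O, hOo, hxO, h1, h2, h3⟩ := P.near_zero h0 (ne_zero_of_pbd hx h0) hx.2.2
  have hO1 : ∀ᶠ x' in 𝓝 x, x' ∈ O := hOo.mem_nhds hxO
  filter_upwards [hO1] with x' hx'
  have h4 : MDifferentiableAt 𝓘(ℂ, C2) 𝓘(ℂ, C2) D.κ (D.κi (Th D Ef x')) :=
    D.κ_hol.mdifferentiableAt ((isOpen_cusp _ _ _).mem_nhds (h1 x' hx').1)
  have h5 : DifferentiableAt ℂ (fun x => D.κi (Th D Ef x)) x' := h3.differentiableAt (hOo.mem_nhds hx')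
  refine (MDifferentiableAt.comp x' h4 h5.mdifferentiableAt).congr_of_eventuallyEq ?_
  filter_upwards [hOo.mem_nhds hx'] with x'' hx''
  exact (h1 x'' hx'').2.1.symm

/-- the differential is injective on the punctured bidisc -/
theorem Pack.inj_fderiv (P : Pack D Ef) {x : C2} (hx : x ∈ pbd D.c₀) (v : C2)
    (hv : fderiv ℂ (fun x' => chartAt C2 (Th D Ef x) (Th D Ef x')) x v = 0) : v = 0 := by
  by_cases h0 : x 0 = 0
  swap
  · exact P.inj_ne h0 hx.2.1 hx.2.2 v hv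
  obtain ⟨O, hOo, hxO, h1, h2, h3⟩ := P.near_zero h0 (ne_zero_of_pbd hx h0) hx.2.2
  set e := chartAt C2 (Th D Ef x) with he
  have hec : HC e := hc_chart _
  have hsrc : Th D Ef x ∈ e.source := mem_chart_source C2 _
  have hM : MDifferentiableAt 𝓘(ℂ, C2) 𝓘(ℂ, C2) (Th D Ef) x := (P.hol hx).self_of_nhds
  have hQd : DifferentiableAt ℂ (fun x' => e (Th D Ef x')) x :=
    (MDifferentiableAt.comp x (hec.mdifferentiableAt hsrc) hM).differentiableAt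
  have him : Th D Ef x ∈ D.κ '' cusp D.c₀ D.δ D.μ := ⟨_, (h1 x hxO).1, (h1 x hxO).2.1⟩
  have hki : MDifferentiableAt 𝓘(ℂ, C2) 𝓘(ℂ, C2) D.κi (e.symm (e (Th D Ef x))) := by
    rw [e.left_inv hsrc]
    exact D.κi_hol.mdifferentiableAt (D.κ_open.mem_nhds him)
  have hkd : DifferentiableAt ℂ (fun w => D.κi (e.symm w)) (e (Th D Ef x)) :=
    (MDifferentiableAt.comp _ hki (hec.mdifferentiableAt_symm (e.map_source hsrc))).differentiableAt
  have hcomp := hkd.hasFDerivAt.comp x hQd.hasFDerivAt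
  have heq : (fun x => D.κi (Th D Ef x)) =ᶠ[𝓝 x]
      (fun w => D.κi (e.symm w)) ∘ fun x' => e (Th D Ef x') := by
    filter_upwards [hM.continuousAt.eventually (e.open_source.mem_nhds hsrc)] with x' hx'
    simp only [Function.comp_apply]
    rw [e.left_inv hx']
  have hPd : DifferentiableAt ℂ (fun x => D.κi (Th D Ef x)) x := h3.differentiableAt (hOo.mem_nhds hxO)
  have hfd := (hcomp.congr_of_eventuallyEq heq).unique hPd.hasFDerivAt
  have hPv : fderiv ℂ (fun x => D.κi (Th D Ef x)) x v = 0 := by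
    rw [← hfd, ContinuousLinearMap.comp_apply, hv, map_zero]
  -- first component
  have hc0 : HasFDerivAt (fun x => D.κi (Th D Ef x) 0)
      ((ContinuousLinearMap.proj (R := ℂ) (φ := fun _ : Fin 2 => ℂ) 0 : C2 →L[ℂ] ℂ).comp
        (fderiv ℂ (fun x => D.κi (Th D Ef x)) x)) x :=
    (ContinuousLinearMap.proj (R := ℂ) (φ := fun _ : Fin 2 => ℂ) 0).hasFDerivAt.comp x
      hPd.hasFDerivAt
  have hc0' : HasFDerivAt (fun x : C2 => x 0)
      (ContinuousLinearMap.proj (R := ℂ) (φ := fun _ : Fin 2 => ℂ) 0 : C2 →L[ℂ] ℂ) x :=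
    (ContinuousLinearMap.proj (R := ℂ) (φ := fun _ : Fin 2 => ℂ) 0).hasFDerivAt
  have hc0eq : (fun x : C2 => x 0) =ᶠ[𝓝 x] fun x => D.κi (Th D Ef x) 0 := by
    filter_upwards [hOo.mem_nhds hxO] with x' hx'
    exact (h1 x' hx').2.2.symm
  have h4 := (hc0.congr_of_eventuallyEq hc0eq).unique hc0'
  have hv0 : v 0 = 0 := by
    have h5 := congrArg (fun L : C2 →L[ℂ] ℂ => L v) h4
    simp only [ContinuousLinearMap.comp_apply, ContinuousLinearMap.proj_apply, hPv] at h5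
    exact h5.symm
  have hv1 : v = v 1 • (Pi.single 1 (1 : ℂ) : C2) := by
    conv_lhs => rw [c2_decomp v, hv0, zero_smul, zero_add]
  -- second component
  have hd1 : HasDerivAt (fun w => D.κi (Th D Ef ![x 0, w]))
      (fderiv ℂ (fun x => D.κi (Th D Ef x)) x (Pi.single 1 1)) (x 1) := by
    have h5 : HasFDerivAt (fun x => D.κi (Th D Ef x))
        (fderiv ℂ (fun x => D.κi (Th D Ef x)) x) ![x 0, x 1] := by
      rw [vec_eq]; exact hPd.hasFDerivAt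
    exact h5.comp_hasDerivAt (x 1) (hasDerivAt_vec1 (x 0) (x 1))
  have hd1' : HasDerivAt (fun w => D.κi (Th D Ef ![x 0, w])) (Pi.single 1 (1 : ℂ) : C2) (x 1) := by
    refine (hasDerivAt_vec1 (x 0) (x 1)).congr_of_eventuallyEq ?_
    have hc : ContinuousAt (fun w : ℂ => (![x 0, w] : C2)) (x 1) :=
      (hasDerivAt_vec1 (x 0) (x 1)).continuousAt
    have hm : O ∈ 𝓝 ![x 0, x 1] := by rw [vec_eq]; exact hOo.mem_nhds hxO
    filter_upwards [hc.eventually hm] with w hw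
    exact h2 _ hw h0
  have h6 := hd1.unique hd1'
  rw [hv1, map_smul, h6] at hPv
  have h7 := congrFun hPv 1
  simp only [Pi.smul_apply, Pi.single_eq_same, smul_eq_mul, mul_one, Pi.zero_apply] at h7
  rw [hv1, h7, zero_smul]

end Vale.Agent.P267.H714
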