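import Vale.Agent.P267.H714.Ext

/-!
# Joint holomorphy of the family of solutions (for LeafThm)
-/

open Set Filter Metric
open scoped Topology Manifold ContDiff NNReal

noncomputable section

namespace Vale.Agent.P267.H714

open Vale.Agent.P267.FL Vale.Agent.P267.H759

theorem isOpen_cusp (c₀ δ : ℝ) (μ : ℕ) : IsOpen (cusp c₀ δ μ) := by
  unfold cusp
  have h0 : Continuous fun x : C2 => ‖x 0‖ := (continuous_apply 0).norm
  have h1 : Continuous fun x : C2 => ‖x 1‖ := (continuous_apply 1).norm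
  exact (isOpen_lt h0 continuous_const).inter ((isOpen_lt continuous_const h1).inter
    ((isOpen_lt h1 continuous_const).inter (isOpen_lt h0 (continuous_const.mul (h1.pow μ)))))

variable {M : Type*} [TopologicalSpace M] [ChartedSpace C2 M]

theorem mem_cusp {D : LeafIn M} {c t : ℂ} (hc : ‖c‖ < D.c₀) (ht : 1 / 8 ≤ ‖t‖) (ht' : ‖t‖ < 8) :
    ![c, t] ∈ cusp D.c₀ D.δ D.μ := by
  refine ⟨hc, ?_, ht', ?_⟩
  · show 0 < ‖t‖
    linarith
  · show ‖c‖ < D.δ * ‖t‖ ^ D.μ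
    have h1 := D.c₀_lt
    have h2 : D.δ * (1 / 8) ^ D.μ ≤ D.δ * ‖t‖ ^ D.μ :=
      mul_le_mul_of_nonneg_left (pow_le_pow_left₀ (by norm_num) ht _) D.δ_pos.le
    linarith

variable {D : LeafIn M}

theorem eta_ne {x : C2} (hx : x ∈ cusp D.c₀ D.δ D.μ) : D.η x ≠ 0 := by
  intro h
  have h1 := D.η_close x hx
  rw [h, zero_sub, norm_neg, norm_one] at h1
  norm_num at h1

/-- Lipschitz estimate for the collar equation -/
theorem lip_eta {c t : ℂ} (h : ![c, t] ∈ cusp D.c₀ D.δ D.μ) :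
    ∃ K : ℝ≥0, ∃ s ∈ 𝓝 t, LipschitzOnWith K (fun t => 1 / D.η ![c, t]) s := by
  have ho := isOpen_cusp D.c₀ D.δ D.μ
  have h1 : ContDiffAt ℂ 1 D.η ![c, t] :=
    (Vale.Agent.P281.MF.contDiffOn_of_differentiableOn ho D.η_hol 1).contDiffAt (ho.mem_nhds h)
  have h2 : ContDiffAt ℂ 1 (fun t : ℂ => (![c, t] : C2)) t := by
    rw [contDiffAt_pi]
    intro i
    fin_cases i
    · exact contDiffAt_const
    · exact contDiffAt_id
  have h3 : ContDiffAt ℂ 1 (fun t => 1 / D.η ![c, t]) t :=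
    contDiffAt_const.div (h1.comp t h2) (eta_ne h)
  exact h3.exists_lipschitzOnWith

/-- a solution of the collar equation, starting at `t = 1` -/
theorem collar_unique {c : ℂ} (hc : ‖c‖ < D.c₀) {T T' : ℂ → ℂ} (h1 : T 1 = 1) (h1' : T' 1 = 1)
    (hT : ∀ᶠ z in 𝓝 1, HasDerivAt T (1 / D.η ![c, T z]) z)
    (hT' : ∀ᶠ z in 𝓝 1, HasDerivAt T' (1 / D.η ![c, T' z]) z) : T =ᶠ[𝓝 1] T' := by
  have hm : (![c, 1] : C2) ∈ cusp D.c₀ D.δ D.μ := mem_cusp hc (by norm_num) (by norm_num)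
  obtain ⟨K, s, hs, hK⟩ := lip_eta hm
  exact ode_local_unique hs hK hT hT' h1 h1'

theorem vec_eq (x : C2) : ![x 0, x 1] = x := by
  ext i; fin_cases i <;> rfl

theorem hasDerivAt_vec1 (c z : ℂ) : HasDerivAt (fun z : ℂ => (![c, z] : C2)) (Pi.single 1 1) z := by
  rw [hasDerivAt_pi]
  intro i
  fin_cases i
  · simpa using hasDerivAt_const z c
  · simpa using hasDerivAt_id' z

theorem hasDerivAt_vec0 (c z : ℂ) : HasDerivAt (fun c : ℂ => (![c, z] : C2)) (Pi.single 0 1) c := by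
  rw [hasDerivAt_pi]
  intro i
  fin_cases i
  · simpa using hasDerivAt_id' c
  · simpa using hasDerivAt_const c z

/-- joint start at `z = 1` -/
def JStart (D : LeafIn M) (c₁ : ℂ) : Prop := ∃ r > 0, ∃ T : ℂ → ℂ → ℂ,
  (∀ c ∈ ball c₁ r, T c 1 = 1 ∧ ∀ z ∈ ball (1 : ℂ) r, ![c, T c z] ∈ cusp D.c₀ D.δ D.μ ∧
    HasDerivAt (T c) (1 / D.η ![c, T c z]) z) ∧
  DifferentiableOn ℂ (fun p : ℂ × ℂ => T p.1 p.2) (ball c₁ r ×ˢ ball (1 : ℂ) r)

variable [T2Space M] [IsManifold 𝓘(ℂ, C2) ω M]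

/-- joint holomorphy near `(c₁, 1)` -/
theorem joint_start {Ef : ℂ → ℂ → M}
    (hE : ∀ c : ℂ, 0 < ‖c‖ → ‖c‖ < D.c₀ → Good D c (Ef c)) {c₁ : ℂ} (hc₁ : 0 < ‖c₁‖)
    (hc₁' : ‖c₁‖ < D.c₀) (hst : JStart D c₁) :
    ∀ᶠ x : C2 in 𝓝 ![c₁, 1],
      MDifferentiableAt 𝓘(ℂ, C2) 𝓘(ℂ, C2) (fun x : C2 => Ef (x 0) (x 1)) x := by
  obtain ⟨r, hr, T, hT, hTd⟩ := hst
  have hco := isOpen_cusp D.c₀ D.δ D.μ
  -- equality
  have heq : ∀ c ∈ ball c₁ r, 0 < ‖c‖ → ‖c‖ < D.c₀ →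
      ∀ z ∈ ball (1 : ℂ) (min r 6), Ef c z = D.κ ![c, T c z] := by
    intro c hcb hc hc'
    obtain ⟨hsol, T0, hT01, hT0⟩ := hE c hc hc'
    have hTc := hT c hcb
    have h1 : T0 =ᶠ[𝓝 1] T c := by
      refine collar_unique hc' hT01 hTc.1 (hT0.mono fun z hz => hz.2) ?_
      filter_upwards [ball_mem_nhds (1 : ℂ) hr] with z hz using (hTc.2 z hz).2
    have h2 : Ef c =ᶠ[𝓝 1] fun z => D.κ ![c, T c z] := by
      filter_upwards [hT0, h1] with z h3 h4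
      rw [h3.1, h4]
    have hm : (0 : ℝ) < min r 6 := lt_min hr (by norm_num)
    refine eqOn_of_eventuallyEq isOpen_ball (convex_ball (1 : ℂ) (min r 6)).isPreconnected
      (hsol.mdiff.mono (ball_subset_ball (min_le_right _ _))) ?_ (mem_ball_self hm) h2
    intro z hz
    have hzr : z ∈ ball (1 : ℂ) r := ball_subset_ball (min_le_left _ _) hz
    have h3 : MDifferentiableAt 𝓘(ℂ, C2) 𝓘(ℂ, C2) D.κ ![c, T c z] :=
      D.κ_hol.mdifferentiableAt (hco.mem_nhds (hTc.2 z hzr).1)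
    have h4 : DifferentiableAt ℂ (fun w => (![c, T c w] : C2)) z :=
      ((hasDerivAt_vec1 c (T c z)).scomp z (hTc.2 z hzr).2).differentiableAt
    exact (MDifferentiableAt.comp z h3 h4.mdifferentiableAt).mdifferentiableWithinAt
  have hn : ∀ᶠ x : C2 in 𝓝 ![c₁, 1], x 0 ∈ ball c₁ r ∧ 0 < ‖x 0‖ ∧ ‖x 0‖ < D.c₀ ∧
      x 1 ∈ ball (1 : ℂ) (min r 6) := by
    have c0 : ContinuousAt (fun x : C2 => x 0) ![c₁, 1] := (continuous_apply 0).continuousAt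
    have c1 : ContinuousAt (fun x : C2 => x 1) ![c₁, 1] := (continuous_apply 1).continuousAt
    refine (c0.eventually (isOpen_ball.mem_nhds (mem_ball_self hr))).and
      ((c0.norm.eventually (lt_mem_nhds hc₁)).and ((c0.norm.eventually (gt_mem_nhds hc₁')).and
        (c1.eventually (isOpen_ball.mem_nhds (mem_ball_self (lt_min hr (by norm_num)))))))
  have hn2 := eventually_eventually_nhds.2 hn
  filter_upwards [hn, hn2] with x hx hx2
  have hzr : x 1 ∈ ball (1 : ℂ) r := ball_subset_ball (min_le_left _ _) hx.2.2.2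
  have h3 : MDifferentiableAt 𝓘(ℂ, C2) 𝓘(ℂ, C2) D.κ ![x 0, T (x 0) (x 1)] :=
    D.κ_hol.mdifferentiableAt (hco.mem_nhds ((hT _ hx.1).2 _ hzr).1)
  have h4 : DifferentiableAt ℂ (fun x : C2 => (![x 0, T (x 0) (x 1)] : C2)) x := by
    rw [differentiableAt_pi]
    intro i
    have p0 : DifferentiableAt ℂ (fun x : C2 => x 0) x := by fun_prop
    have p1 : DifferentiableAt ℂ (fun x : C2 => x 1) x := by fun_prop
    fin_cases i
    · exact p0
    · have h5 : DifferentiableAt ℂ (fun p : ℂ × ℂ => T p.1 p.2) (x 0, x 1) :=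
        hTd.differentiableAt ((isOpen_ball.prod isOpen_ball).mem_nhds ⟨hx.1, hzr⟩)
      show DifferentiableAt ℂ (fun x : C2 => T (x 0) (x 1)) x
      exact DifferentiableAt.comp (g := fun p : ℂ × ℂ => T p.1 p.2) x h5 (p0.prodMk p1)
  refine (MDifferentiableAt.comp x h3 h4.mdifferentiableAt).congr_of_eventuallyEq ?_
  filter_upwards [hx2] with y hy
  exact heq _ hy.1 hy.2.1 hy.2.2.1 _ hy.2.2.2

/-- one step of the propagation of joint holomorphy -/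
theorem joint_step {Ef : ℂ → ℂ → M}
    (hE : ∀ c : ℂ, 0 < ‖c‖ → ‖c‖ < D.c₀ → Good D c (Ef c)) {c₁ : ℂ} (hc₁ : 0 < ‖c₁‖)
    (hc₁' : ‖c₁‖ < D.c₀) {z₁ z₂ : ℂ} (hz₁ : z₁ ∈ ball (1 : ℂ) 6) (hz₂ : z₂ ∈ ball (1 : ℂ) 6)
    (B : Box D) (hB : Ef c₁ z₁ ∈ B.V) (hclose : ‖z₂ - z₁‖ < B.ε * rho D c₁)
    (h : ∀ᶠ x : C2 in 𝓝 ![c₁, z₁],
      MDifferentiableAt 𝓘(ℂ, C2) 𝓘(ℂ, C2) (fun x : C2 => Ef (x 0) (x 1)) x) :
    ∀ᶠ x : C2 in 𝓝 ![c₁, z₂],
      MDifferentiableAt 𝓘(ℂ, C2) 𝓘(ℂ, C2) (fun x : C2 => Ef (x 0) (x 1)) x := by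
  set Θ : C2 → M := fun x => Ef (x 0) (x 1) with hΘ
  have hΘz : ∀ c z, Θ ![c, z] = Ef c z := fun c z => rfl
  have hx1 : Θ ![c₁, z₁] ∈ B.V := hB
  have hcont1 : ContinuousAt Θ ![c₁, z₁] := h.self_of_nhds.continuousAt
  -- `Θ` near `(c₁, z₁)` in coordinates
  have hnear : ∀ᶠ x : C2 in 𝓝 ![c₁, z₁], DifferentiableAt ℂ (fun x => B.e (Θ x)) x ∧ Θ x ∈ B.V := by
    filter_upwards [h, hcont1.eventually (B.V_open.mem_nhds hx1)] with x h1 h2
    exact ⟨(MDifferentiableAt.comp x (B.e_hc.mdifferentiableAt (B.V'_src (B.V_sub h2))) h1).differentiableAt, h2⟩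
  obtain ⟨O, hO, hOo, hx1O⟩ := _root_.eventually_nhds_iff.1 hnear
  have hPd : DifferentiableOn ℂ (fun x => B.e (Θ x)) O := fun x hx => (hO x hx).1.differentiableWithinAt
  have hPa : AnalyticOnNhd ℂ (fun x => B.e (Θ x)) O :=
    Vale.Agent.P281.MF.analyticOnNhd_of_differentiableOn hOo hPd
  set A : ℂ → C2 := fun c => B.e (Θ ![c, z₁]) with hA
  set v : ℂ → C2 := fun c => fderiv ℂ (fun x => B.e (Θ x)) ![c, z₁] (Pi.single 1 1) with hv
  have hOc : ∀ᶠ c in 𝓝 c₁, ![c, z₁] ∈ O := by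
    have hc : ContinuousAt (fun c : ℂ => (![c, z₁] : C2)) c₁ := (hasDerivAt_vec0 c₁ z₁).continuousAt
    exact hc.eventually (hOo.mem_nhds hx1O)
  have hAd : ∀ c, ![c, z₁] ∈ O → DifferentiableAt ℂ A c := fun c hc =>
    DifferentiableAt.comp (g := fun x => B.e (Θ x)) c (hPa _ hc).differentiableAt
      (hasDerivAt_vec0 c z₁).differentiableAt
  have hvd : ∀ c, ![c, z₁] ∈ O → DifferentiableAt ℂ v c := by
    intro c hc
    have h1 : DifferentiableAt ℂ (fderiv ℂ (fun x => B.e (Θ x))) ![c, z₁] :=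
      (hPa _ hc).fderiv.differentiableAt
    exact (h1.comp c (hasDerivAt_vec0 c z₁).differentiableAt).clm_apply (differentiableAt_const _)
  have hv_eq : ∀ c, ![c, z₁] ∈ O → deriv (fun w => B.e (Ef c w)) z₁ = v c := by
    intro c hc
    have h1 := (hPa _ hc).differentiableAt.hasFDerivAt
    exact (h1.comp_hasDerivAt z₁ (hasDerivAt_vec1 c z₁)).deriv
  -- the field
  have hXd : ∀ c, ![c, z₁] ∈ O → DifferentiableAt ℂ (fun c => B.X (A c)) c := by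
    intro c hc
    have h1 : DifferentiableAt ℂ B.X (A c) :=
      (B.X_cd _ (B.V_sub (hO _ hc).2)).differentiableAt (by norm_num)
    exact h1.comp c (hAd c hc)
  have hsolc : ∀ c : ℂ, 0 < ‖c‖ → ‖c‖ < D.c₀ → Sol D (rho D c) (Ef c) (ball 1 6) := fun c h1 h2 =>
    (hE c h1 h2).1
  have hX0 : B.X (A c₁) ≠ 0 :=
    (B.X_ne (B.V_sub hx1)).2 ((hsolc c₁ hc₁ hc₁' z₁ hz₁).reg' B.e_hc (B.V'_src (B.V_sub hB)))
  obtain ⟨j, hj⟩ : ∃ j, B.X (A c₁) j ≠ 0 := by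
    by_contra hne
    push Not at hne
    exact hX0 (funext hne)
  have hXjd : ∀ c, ![c, z₁] ∈ O → DifferentiableAt ℂ (fun c => B.X (A c) j) c := fun c hc =>
    (ContinuousLinearMap.proj (R := ℂ) (φ := fun _ : Fin 2 => ℂ) j).differentiableAt.comp c (hXd c hc)
  have hvjd : ∀ c, ![c, z₁] ∈ O → DifferentiableAt ℂ (fun c => v c j) c := fun c hc =>
    (ContinuousLinearMap.proj (R := ℂ) (φ := fun _ : Fin 2 => ℂ) j).differentiableAt.comp c (hvd c hc)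
  set g : ℂ → ℂ := fun c => v c j / B.X (A c) j with hg
  have hev : ∀ᶠ c in 𝓝 c₁, ![c, z₁] ∈ O ∧ B.X (A c) j ≠ 0 ∧ 0 < ‖c‖ ∧ ‖c‖ < D.c₀ := by
    refine hOc.and (((hXjd c₁ hx1O).continuousAt.eventually_ne hj).and
      ((continuous_norm.continuousAt.eventually (lt_mem_nhds hc₁)).and
        (continuous_norm.continuousAt.eventually (gt_mem_nhds hc₁'))))
  -- the formula
  have hform : ∀ c, ![c, z₁] ∈ O → B.X (A c) j ≠ 0 → 0 < ‖c‖ → ‖c‖ < D.c₀ →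
      ‖g c‖ * rho D c = 1 ∧ ∀ z ∈ ball (1 : ℂ) 6, ‖z - z₁‖ < B.ε * rho D c →
        Ef c z = B.ψ (Ef c z₁) (g c * (z - z₁)) := by
    intro c hcO hcX hc hc'
    have hs := hsolc c hc hc'
    have hVc : Ef c z₁ ∈ B.V := (hO _ hcO).2
    have hevs : ∀ᶠ z in 𝓝 z₁, SolAt D (rho D c) (Ef c) z := by
      filter_upwards [isOpen_ball.mem_nhds hz₁] with z hz using hs z hz
    obtain ⟨l, hl1, hl2, hl3⟩ := B.flow_eq hevs hVc
    rw [hv_eq c hcO] at hl2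
    have hgl : g c = l := by
      have : v c j = l * B.X (A c) j := by rw [hl2]; rfl
      simp only [hg, this]
      field_simp
    rw [hgl]
    refine ⟨hl1, fun z hz hzc => ?_⟩
    have hpos : 0 < B.ε * rho D c := mul_pos B.ε_pos (rho_pos D hc)
    have hreg : dzz D B.e (Ef c z₁) ≠ 0 := (hs z₁ hz₁).reg' B.e_hc (B.V'_src (B.V_sub hVc))
    have hsol := B.sol hVc hreg hl1
    refine eqOn_of_eventuallyEq (F := fun z => B.ψ (Ef c z₁) (l * (z - z₁)))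
      (isOpen_ball.inter (isOpen_ball (x := z₁) (ε := B.ε * rho D c)))
      ((convex_ball (1 : ℂ) 6).inter (convex_ball z₁ _)).isPreconnected
      (hs.mdiff.mono inter_subset_left) ?_ ⟨hz₁, mem_ball_self hpos⟩ hl3
      ⟨hz, by rwa [mem_ball, dist_eq_norm]⟩
    intro w hw
    have h1 : SolAt D (rho D c) (fun s => B.ψ (Ef c z₁) (l * s)) (1 * w + -z₁) := by
      refine hsol _ ?_
      rw [mem_ball_zero_iff, one_mul, ← sub_eq_add_neg]
      have := hw.2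
      rwa [mem_ball, dist_eq_norm] at this
    have h2 := SolAt.comp_isometry (ζ := 1) (b := -z₁) (by simp) h1
    have h3 : SolAt D (rho D c) (fun w => B.ψ (Ef c z₁) (l * (w - z₁))) w := by
      simpa only [one_mul, ← sub_eq_add_neg] using h2
    exact h3.diff.mdifferentiableWithinAt
  -- near `(c₁, z₂)`
  have hrc : ContinuousAt (fun c => rho D c) c₁ := by
    unfold rho
    fun_prop
  have c0 : ContinuousAt (fun x : C2 => x 0) ![c₁, z₂] := (continuous_apply 0).continuousAt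
  have c1 : ContinuousAt (fun x : C2 => x 1) ![c₁, z₂] := (continuous_apply 1).continuousAt
  have hn : ∀ᶠ x : C2 in 𝓝 ![c₁, z₂], (![x 0, z₁] ∈ O ∧ B.X (A (x 0)) j ≠ 0 ∧ 0 < ‖x 0‖ ∧
      ‖x 0‖ < D.c₀) ∧ x 1 ∈ ball (1 : ℂ) 6 ∧ ‖x 1 - z₁‖ < B.ε * rho D (x 0) := by
    refine (c0.eventually (p := fun c => ![c, z₁] ∈ O ∧ B.X (A c) j ≠ 0 ∧ 0 < ‖c‖ ∧ ‖c‖ < D.c₀)
      hev).and ((c1.eventually (isOpen_ball.mem_nhds hz₂)).and ?_)
    have h1 : ContinuousAt (fun x : C2 => ‖x 1 - z₁‖) ![c₁, z₂] := (c1.sub continuousAt_const).norm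
    have h2 : ContinuousAt (fun x : C2 => B.ε * rho D (x 0)) ![c₁, z₂] :=
      continuousAt_const.mul
        (ContinuousAt.comp (g := fun c => rho D c) (f := fun x : C2 => x 0) hrc c0)
    exact h1.eventually_lt h2 hclose
  have hn2 := eventually_eventually_nhds.2 hn
  filter_upwards [hn, hn2] with x hx hx2
  obtain ⟨hgx, hfx⟩ := hform (x 0) hx.1.1 hx.1.2.1 hx.1.2.2.1 hx.1.2.2.2
  set y := Ef (x 0) z₁ with hy
  have hyV : y ∈ B.V := (hO _ hx.1.1).2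
  set s := g (x 0) * (x 1 - z₁) with hs
  have hsb : s ∈ ball (0 : ℂ) B.ε := by
    rw [mem_ball_zero_iff, hs, norm_mul]
    have h0 : 0 < ‖g (x 0)‖ := by
      by_contra h0
      have : ‖g (x 0)‖ = 0 := le_antisymm (not_lt.1 h0) (norm_nonneg _)
      rw [this, zero_mul] at hgx
      exact zero_ne_one hgx
    calc ‖g (x 0)‖ * ‖x 1 - z₁‖ < ‖g (x 0)‖ * (B.ε * rho D (x 0)) :=
          mul_lt_mul_of_pos_left hx.2.2 h0
      _ = (‖g (x 0)‖ * rho D (x 0)) * B.ε := by ring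
      _ = B.ε := by rw [hgx, one_mul]
  have p0 : DifferentiableAt ℂ (fun x : C2 => x 0) x := by fun_prop
  have p1 : DifferentiableAt ℂ (fun x : C2 => x 1) x := by fun_prop
  have hgd : DifferentiableAt ℂ g (x 0) := (hvjd _ hx.1.1).div (hXjd _ hx.1.1) hx.1.2.1
  have hin : DifferentiableAt ℂ (fun x : C2 => (A (x 0), g (x 0) * (x 1 - z₁))) x :=
    (DifferentiableAt.comp (g := A) x (hAd _ hx.1.1) p0).prodMk
      ((DifferentiableAt.comp (g := g) x hgd p0).mul (p1.sub_const z₁))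
  have hout : DifferentiableAt ℂ (fun p : C2 × ℂ => B.e (B.ψ (B.e.symm p.1) p.2))
      (A (x 0), g (x 0) * (x 1 - z₁)) := B.ψ_joint y hyV s hsb
  have hcomp := DifferentiableAt.comp x hout hin
  -- `Θ` is this composition near `x`
  have hval : ∀ᶠ x' : C2 in 𝓝 x, Θ x' = B.ψ (B.e.symm (A (x' 0))) (g (x' 0) * (x' 1 - z₁)) := by
    filter_upwards [hx2] with x' hx'
    have h1 := (hform (x' 0) hx'.1.1 hx'.1.2.1 hx'.1.2.2.1 hx'.1.2.2.2).2 (x' 1) hx'.2.1 hx'.2.2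
    have h2 : B.e.symm (A (x' 0)) = Ef (x' 0) z₁ :=
      B.e.left_inv (B.V'_src (B.V_sub (hO _ hx'.1.1).2))
    rw [h2]
    exact h1
  have hxval := hval.self_of_nhds
  have hsymA : B.e.symm (A (x 0)) = y := B.e.left_inv (B.V'_src (B.V_sub hyV))
  have hmem : Θ x ∈ B.V' := by
    rw [hxval, hsymA]
    exact B.ψ_mem y hyV s hsb
  have htarget : B.e (B.ψ (B.e.symm (A (x 0))) (g (x 0) * (x 1 - z₁))) ∈ B.e.target := by
    rw [← hxval]
    exact B.e.map_source (B.V'_src hmem)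
  have hM : MDifferentiableAt 𝓘(ℂ, C2) 𝓘(ℂ, C2)
      (fun x' : C2 => B.e.symm (B.e (B.ψ (B.e.symm (A (x' 0))) (g (x' 0) * (x' 1 - z₁))))) x :=
    MDifferentiableAt.comp x (B.e_hc.mdifferentiableAt_symm htarget) hcomp.mdifferentiableAt
  refine hM.congr_of_eventuallyEq ?_
  -- the values are in the source of the chart near `x`
  have hc2 : ContinuousAt (fun x' : C2 => B.e.symm (B.e (B.ψ (B.e.symm (A (x' 0)))
      (g (x' 0) * (x' 1 - z₁))))) x := hM.continuousAt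
  filter_upwards [hval, hx2] with x' h1 h2
  obtain ⟨hgx', -⟩ := hform (x' 0) h2.1.1 h2.1.2.1 h2.1.2.2.1 h2.1.2.2.2
  have hyV' : Ef (x' 0) z₁ ∈ B.V := (hO _ h2.1.1).2
  have hsymA' : B.e.symm (A (x' 0)) = Ef (x' 0) z₁ := B.e.left_inv (B.V'_src (B.V_sub hyV'))
  have hsb' : g (x' 0) * (x' 1 - z₁) ∈ ball (0 : ℂ) B.ε := by
    rw [mem_ball_zero_iff, norm_mul]
    have h0 : 0 < ‖g (x' 0)‖ := by
      by_contra h0
      have : ‖g (x' 0)‖ = 0 := le_antisymm (not_lt.1 h0) (norm_nonneg _)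
      rw [this, zero_mul] at hgx'
      exact zero_ne_one hgx'
    calc ‖g (x' 0)‖ * ‖x' 1 - z₁‖ < ‖g (x' 0)‖ * (B.ε * rho D (x' 0)) :=
          mul_lt_mul_of_pos_left h2.2.2 h0
      _ = (‖g (x' 0)‖ * rho D (x' 0)) * B.ε := by ring
      _ = B.ε := by rw [hgx', one_mul]
  show Θ x' = _
  rw [h1, hsymA']
  exact (B.e.left_inv (B.V'_src (B.ψ_mem _ hyV' _ hsb'))).symm

/-- **Joint holomorphy** of the solutions. -/
theorem joint {Ef : ℂ → ℂ → M}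
    (hE : ∀ c : ℂ, 0 < ‖c‖ → ‖c‖ < D.c₀ → Good D c (Ef c)) {c₁ : ℂ} (hc₁ : 0 < ‖c₁‖)
    (hc₁' : ‖c₁‖ < D.c₀) (hst : JStart D c₁) {z : ℂ} (hz : z ∈ ball (1 : ℂ) 6) :
    ∀ᶠ x : C2 in 𝓝 ![c₁, z],
      MDifferentiableAt 𝓘(ℂ, C2) 𝓘(ℂ, C2) (fun x : C2 => Ef (x 0) (x 1)) x := by
  set H : Set ℂ := {z | ∀ᶠ x : C2 in 𝓝 ![c₁, z],
    MDifferentiableAt 𝓘(ℂ, C2) 𝓘(ℂ, C2) (fun x : C2 => Ef (x 0) (x 1)) x} with hH
  have hHo : IsOpen H := by
    rw [isOpen_iff_mem_nhds]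
    intro w hw
    have h1 := eventually_eventually_nhds.2 (hw : ∀ᶠ x : C2 in 𝓝 ![c₁, w],
      MDifferentiableAt 𝓘(ℂ, C2) 𝓘(ℂ, C2) (fun x : C2 => Ef (x 0) (x 1)) x)
    have h2 : ContinuousAt (fun z : ℂ => (![c₁, z] : C2)) w := (hasDerivAt_vec1 c₁ w).continuousAt
    exact h2.eventually h1
  have hsol : Sol D (rho D c₁) (Ef c₁) (ball 1 6) := (hE c₁ hc₁ hc₁').1
  refine (convex_ball (1 : ℂ) 6).isPreconnected.subset_of_closure_inter_subset hHo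
    ⟨1, mem_ball_self (by norm_num), joint_start hE hc₁ hc₁' hst⟩ ?_ hz
  rintro w ⟨hwcl, hw6⟩
  obtain ⟨B, hB⟩ := exists_box D (hsol w hw6).mem
  have hρ := rho_pos D hc₁
  have h1 : ∀ᶠ w' in 𝓝 w, w' ∈ ball (1 : ℂ) 6 ∧ Ef c₁ w' ∈ B.V ∧ ‖w - w'‖ < B.ε * rho D c₁ := by
    have c1 : ContinuousAt (fun w' : ℂ => ‖w - w'‖) w := by fun_prop
    have h0 : ∀ᶠ w' in 𝓝 w, w' ∈ ball (1 : ℂ) 6 := isOpen_ball.mem_nhds hw6
    refine h0.and (((hsol w hw6).diff.continuousAt.eventually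
      (B.V_open.mem_nhds hB)).and (c1.eventually (gt_mem_nhds ?_)))
    show ‖w - w‖ < _
    rw [sub_self, norm_zero]
    exact mul_pos B.ε_pos hρ
  obtain ⟨w', hw'H, hw'6, hw'V, hw'c⟩ := (mem_closure_iff_frequently.1 hwcl).and_eventually h1 |>.exists
  exact joint_step hE hc₁ hc₁' hw'6 hw6 B hw'V hw'c hw'H

end Vale.Agent.P267.H714
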