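import Vale.Agent.P267.H714.Coord
import Mathlib.Analysis.Complex.RemovableSingularity

/-!
# Normal form at a crossing (NFThm of H759/RawA)
-/

open Set Filter Metric
open scoped Topology ContDiff

noncomputable section

namespace Vale.Agent.P267.H714

open Vale.Agent.P267.FL

/-- holomorphic inverse function theorem -/
theorem exists_ophom {f : C2 → C2} {U : Set C2} (hU : IsOpen U) (hf : DifferentiableOn ℂ f U)
    {x₀ : C2} (hx₀ : x₀ ∈ U) (hd : (fderiv ℂ f x₀).det ≠ 0) :
    ∃ E : OpenPartialHomeomorph C2 C2, x₀ ∈ E.source ∧ E.source ⊆ U ∧ (∀ x, E x = f x) ∧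
      (∀ x ∈ E.source, (fderiv ℂ f x).det ≠ 0) ∧ DifferentiableOn ℂ E.symm E.target := by
  have hcd : ContDiffOn ℂ 1 f U := Vale.Agent.P281.MF.contDiffOn_of_differentiableOn hU hf 1
  have han : AnalyticOnNhd ℂ f U := Vale.Agent.P281.MF.analyticOnNhd_of_differentiableOn hU hf
  -- invertible derivatives
  have hequiv : ∀ x, (fderiv ℂ f x).det ≠ 0 →
      ∃ A : C2 ≃L[ℂ] C2, (A : C2 →L[ℂ] C2) = fderiv ℂ f x := by
    intro x hx
    have hinj : Function.Injective (fderiv ℂ f x : C2 →ₗ[ℂ] C2) := by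
      rw [← LinearMap.ker_eq_bot, LinearMap.ker_eq_bot']
      intro v hv
      apply eq_zero_of_wd
      intro u
      have h1 := wd_clm (fderiv ℂ f x) v u
      have h2 : fderiv ℂ f x v = 0 := hv
      rw [h2] at h1
      have h3 : wd 0 (fderiv ℂ f x u) = 0 := by simp [wd]
      rw [h3] at h1
      exact (mul_eq_zero.1 h1.symm).resolve_left hx
    refine ⟨(LinearEquiv.ofInjectiveEndo (fderiv ℂ f x : C2 →ₗ[ℂ] C2) hinj).toContinuousLinearEquiv, ?_⟩
    ext v : 1; rfl
  obtain ⟨A, hA⟩ := hequiv x₀ hd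
  have hc₀ : ContDiffAt ℂ 1 f x₀ := hcd.contDiffAt (hU.mem_nhds hx₀)
  have hs : HasStrictFDerivAt f (A : C2 →L[ℂ] C2) x₀ := by
    rw [hA]; exact hc₀.hasStrictFDerivAt (by norm_num)
  set P := hs.toOpenPartialHomeomorph f with hP
  have hPc : ∀ x, P x = f x := fun x => rfl
  have hPx : x₀ ∈ P.source := hs.mem_toOpenPartialHomeomorph_source
  -- the set where the derivative is invertible
  have hdet : ContinuousOn (fun x => (fderiv ℂ f x).det) U := by
    have h1 : ∀ x ∈ U, ContinuousAt (fderiv ℂ f) x := fun x hx => (han x hx).fderiv.continuousAt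
    intro x hx
    have h2 : (fun x => (fderiv ℂ f x).det) =
        fun x => wd (fderiv ℂ f x (Pi.single 0 1)) (fderiv ℂ f x (Pi.single 1 1)) := by
      funext x; exact det_c2 _
    rw [h2]
    have h3 : ∀ v : C2, ContinuousAt (fun x => fderiv ℂ f x v) x := fun v =>
      (h1 x hx).clm_apply continuousAt_const
    have h4 : ∀ (v : C2) (i : Fin 2), ContinuousAt (fun x => fderiv ℂ f x v i) x := fun v i =>
      (continuous_apply i).continuousAt.comp (h3 v)
    exact (((h4 _ 0).mul (h4 _ 1)).sub ((h4 _ 1).mul (h4 _ 0))).continuousWithinAt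
  have hVo : IsOpen (U ∩ (fun x => (fderiv ℂ f x).det) ⁻¹' {0}ᶜ) :=
    hdet.isOpen_inter_preimage hU isOpen_compl_singleton
  set V := U ∩ (fun x => (fderiv ℂ f x).det) ⁻¹' {0}ᶜ with hV
  have hxV : x₀ ∈ V := ⟨hx₀, hd⟩
  refine ⟨P.restrOpen V hVo, ⟨hPx, hxV⟩, fun x hx => hx.2.1, hPc, fun x hx => hx.2.2, ?_⟩
  intro y hy
  have hx : (P.restrOpen V hVo).symm y ∈ (P.restrOpen V hVo).source :=
    (P.restrOpen V hVo).map_target hy
  obtain ⟨A', hA'⟩ := hequiv _ hx.2.2
  have h1 : HasFDerivAt (P.restrOpen V hVo) (A' : C2 →L[ℂ] C2) ((P.restrOpen V hVo).symm y) := by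
    rw [hA']
    exact (hf.differentiableAt (hU.mem_nhds hx.2.1)).hasFDerivAt
  exact ((P.restrOpen V hVo).hasFDerivAt_symm hy h1).differentiableAt.differentiableWithinAt

/-- local `m`-th root -/
theorem exists_root {u : C2 → ℂ} {U : Set C2} (hU : IsOpen U) (hu : DifferentiableOn ℂ u U)
    (h0 : (0 : C2) ∈ U) (hu0 : u 0 ≠ 0) {m : ℕ} (hm : 0 < m) :
    ∃ W : Set C2, IsOpen W ∧ (0 : C2) ∈ W ∧ W ⊆ U ∧ ∃ r : C2 → ℂ, DifferentiableOn ℂ r W ∧
      (∀ x ∈ W, r x ^ m = u x) ∧ ∀ x ∈ W, r x ≠ 0 := by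
  obtain ⟨c, hc⟩ := IsAlgClosed.exists_pow_nat_eq (u 0) hm
  have hq : ContinuousOn (fun x => u x / u 0) U := hu.continuousOn.div_const _
  have hWo : IsOpen (U ∩ (fun x => u x / u 0) ⁻¹' Complex.slitPlane) :=
    hq.isOpen_inter_preimage hU Complex.isOpen_slitPlane
  have hc0 : c ≠ 0 := by
    rintro rfl
    rw [zero_pow hm.ne'] at hc
    exact hu0 hc.symm
  refine ⟨_, hWo, ⟨h0, ?_⟩, inter_subset_left,
    fun x => c * Complex.exp (Complex.log (u x / u 0) / m), ?_, ?_, ?_⟩
  · show u 0 / u 0 ∈ Complex.slitPlane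
    rw [div_self hu0]
    exact Complex.one_mem_slitPlane
  · intro x hx
    have h1 : DifferentiableAt ℂ u x := hu.differentiableAt (hU.mem_nhds hx.1)
    have h1' : DifferentiableAt ℂ (fun x => u x / u 0) x := by
      simpa only [div_eq_mul_inv] using h1.mul_const (u 0)⁻¹
    have h2 : DifferentiableAt ℂ (fun x => Complex.log (u x / u 0)) x := h1'.clog hx.2
    have h3 : DifferentiableAt ℂ (fun x => Complex.log (u x / u 0) / m) x := by
      simpa only [div_eq_mul_inv] using h2.mul_const (m : ℂ)⁻¹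
    exact (h3.cexp.const_mul c).differentiableWithinAt
  · intro x hx
    have hm' : (m : ℂ) ≠ 0 := Nat.cast_ne_zero.2 hm.ne'
    rw [mul_pow, hc, ← Complex.exp_nat_mul, mul_div_cancel₀ _ hm',
      Complex.exp_log (Complex.slitPlane_ne_zero hx.2), mul_div_cancel₀ _ hu0]
  · intro x _
    exact mul_ne_zero hc0 (Complex.exp_ne_zero _)

/-- `da ∧ db` -/
def jd (a b : C2 → ℂ) (x : C2) : ℂ :=
  fderiv ℂ a x (Pi.single 0 1) * fderiv ℂ b x (Pi.single 1 1) -
    fderiv ℂ a x (Pi.single 1 1) * fderiv ℂ b x (Pi.single 0 1)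

theorem det_pair {a b : C2 → ℂ} {x : C2} (ha : DifferentiableAt ℂ a x) (hb : DifferentiableAt ℂ b x) :
    (fderiv ℂ (fun x => (![a x, b x] : C2)) x).det = jd a b x := by
  have h1 : HasFDerivAt (fun x => (![a x, b x] : C2))
      (ContinuousLinearMap.pi ![fderiv ℂ a x, fderiv ℂ b x]) x := by
    rw [hasFDerivAt_pi']
    intro i
    fin_cases i
    · exact ha.hasFDerivAt
    · exact hb.hasFDerivAt
  rw [h1.fderiv, det_c2]
  simp only [wd, jd, ContinuousLinearMap.coe_pi', Matrix.cons_val_zero, Matrix.cons_val_one]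
  ring

theorem jd_ne_of_indep {a b : C2 → ℂ} {x : C2}
    (h : LinearIndependent ℂ ![fderiv ℂ a x, fderiv ℂ b x]) : jd a b x ≠ 0 := by
  intro h0
  rw [LinearIndependent.pair_iff] at h
  have e1 := h (fderiv ℂ b x (Pi.single 1 1)) (-(fderiv ℂ a x (Pi.single 1 1))) (by
    ext v
    rw [c2_decomp v]
    simp only [add_apply, smul_apply, map_add, map_smul, smul_eq_mul, zero_apply, neg_smul,
      neg_apply]
    unfold jd at h0
    linear_combination (v 0) * h0)
  have e2 := h (fderiv ℂ b x (Pi.single 0 1)) (-(fderiv ℂ a x (Pi.single 0 1))) (by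
    ext v
    rw [c2_decomp v]
    simp only [add_apply, smul_apply, map_add, map_smul, smul_eq_mul, zero_apply, neg_smul,
      neg_apply]
    unfold jd at h0
    linear_combination (-(v 1)) * h0)
  have ha : fderiv ℂ a x = 0 := by
    ext v
    rw [c2_decomp v, map_add, map_smul, map_smul, neg_eq_zero.1 e1.2, neg_eq_zero.1 e2.2]
    simp
  have := h 1 0 (by rw [ha]; simp)
  exact one_ne_zero this.1

/-- the primitive in the normal form: `T' = g`, `T = t k` -/
theorem exists_prim {g : ℂ → ℂ} {r : ℝ} (hr : 0 < r) (hg : DifferentiableOn ℂ g (ball 0 r))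
    (hg0 : g 0 ≠ 0) : ∃ r' > 0, r' ≤ r ∧ ∃ k : ℂ → ℂ, DifferentiableOn ℂ k (ball 0 r') ∧
      (∀ t ∈ ball (0 : ℂ) r', k t ≠ 0) ∧
      ∀ t ∈ ball (0 : ℂ) r', HasDerivAt (fun t => t * k t) (g t) t := by
  obtain ⟨T, hT0, hT⟩ := exists_primitive isOpen_ball (convex_ball (0 : ℂ) r) hg 0 0
  have h0 : (0 : ℂ) ∈ ball (0 : ℂ) r := mem_ball_self hr
  have hTd : DifferentiableOn ℂ T (ball 0 r) := fun t ht => (hT t ht).differentiableAt.differentiableWithinAt
  have hkd : DifferentiableOn ℂ (dslope T 0) (ball 0 r) :=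
    (Complex.differentiableOn_dslope (isOpen_ball.mem_nhds h0)).2 hTd
  have hTk : ∀ t, T t = t * dslope T 0 t := by
    intro t
    have h1 := sub_smul_dslope T 0 t
    rw [hT0, sub_zero, sub_zero, smul_eq_mul] at h1
    exact h1.symm
  have hk0 : dslope T 0 0 ≠ 0 := by
    rw [dslope_same, (hT 0 h0).deriv]
    exact hg0
  have hkc : ContinuousAt (dslope T 0) 0 := (hkd.differentiableAt (isOpen_ball.mem_nhds h0)).continuousAt
  obtain ⟨r₁, hr₁, hb⟩ := Metric.eventually_nhds_iff_ball.1 (hkc.eventually_ne hk0)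
  refine ⟨min r r₁, lt_min hr hr₁, min_le_left _ _, dslope T 0,
    hkd.mono (ball_subset_ball (min_le_left _ _)),
    fun t ht => hb t (ball_subset_ball (min_le_right _ _) ht), fun t ht => ?_⟩
  refine (hT t (ball_subset_ball (min_le_left _ _) ht)).congr_of_eventuallyEq ?_
  exact Eventually.of_forall fun t => (hTk t).symm

/-- `NFThm` -/
theorem nf (U : Set C2) (a b u v : C2 → ℂ) (m μ : ℕ) (hU : IsOpen U) (h0U : (0 : C2) ∈ U)
    (hm : 0 < m) (ha : DifferentiableOn ℂ a U) (hb : DifferentiableOn ℂ b U)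
    (hu : DifferentiableOn ℂ u U) (hv : DifferentiableOn ℂ v U) (ha0 : a 0 = 0) (hb0 : b 0 = 0)
    (hu0 : u 0 ≠ 0) (hv0 : v 0 ≠ 0) (hind : LinearIndependent ℂ ![fderiv ℂ a 0, fderiv ℂ b 0]) :
    ∃ E : OpenPartialHomeomorph C2 C2, (0 : C2) ∈ E.source ∧ E.source ⊆ U ∧ E 0 = 0 ∧
      DifferentiableOn ℂ E E.source ∧ DifferentiableOn ℂ E.symm E.target ∧
      (∀ x ∈ E.source, a x = 0 ↔ E x 0 = 0) ∧ (∀ x ∈ E.source, b x = 0 ↔ E x 1 = 0) ∧
      (∀ x ∈ E.source, u x * a x ^ m * b x ^ (μ * m) = (E x 0 * E x 1 ^ μ) ^ m) ∧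
      ∃ H : C2 → ℂ, DifferentiableOn ℂ H E.target ∧ (∀ y ∈ E.target, y 0 = 0 → H y = 1) ∧
        ∀ x ∈ E.source, v x * b x ^ μ = H (E x) * E x 1 ^ μ * (fderiv ℂ E x).det := by
  have hda : ∀ x ∈ U, DifferentiableAt ℂ a x := fun x hx => ha.differentiableAt (hU.mem_nhds hx)
  have hdb : ∀ x ∈ U, DifferentiableAt ℂ b x := fun x hx => hb.differentiableAt (hU.mem_nhds hx)
  -- the coordinates `(a, b)`
  have hjd : jd a b 0 ≠ 0 := jd_ne_of_indep hind
  have hFd : DifferentiableOn ℂ (fun x => (![a x, b x] : C2)) U := by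
    intro x hx
    refine DifferentiableAt.differentiableWithinAt ?_
    rw [differentiableAt_pi]
    intro i
    fin_cases i
    · exact hda x hx
    · exact hdb x hx
  obtain ⟨F, hF0, hFU, hFx, hFdet, hFs⟩ := exists_ophom hU hFd h0U (by
    rw [det_pair (hda 0 h0U) (hdb 0 h0U)]; exact hjd)
  have hFjd : ∀ x ∈ F.source, jd a b x ≠ 0 := by
    intro x hx
    have := hFdet x hx
    rwa [det_pair (hda x (hFU hx)) (hdb x (hFU hx))] at this
  -- the root of `u`
  obtain ⟨W, hWo, h0W, hWU, ru, hrd, hrm, hrne⟩ := exists_root hU hu h0U hu0 hm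
  -- the function `g`
  have hF00 : F 0 = 0 := by
    rw [hFx]
    ext i
    fin_cases i
    · exact ha0
    · exact hb0
  have hcvec : Continuous fun t : ℂ => (![0, t] : C2) := by
    refine continuous_pi fun i => ?_
    fin_cases i
    · exact continuous_const
    · exact continuous_id
  have hF0t : (0 : C2) ∈ F.target := by rw [← hF00]; exact F.map_source hF0
  have hFs0 : F.symm 0 = 0 := by
    conv_lhs => rw [← hF00]
    exact F.left_inv hF0
  have hvec0 : (![0, 0] : C2) = 0 := by ext i; fin_cases i <;> rfl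
  have hvec : ∀ᶠ t : ℂ in 𝓝 0, ![0, t] ∈ F.target ∧ F.symm ![0, t] ∈ W ∩ {x | v x ≠ 0} ∩ U := by
    have h1 : Tendsto (fun t : ℂ => (![0, t] : C2)) (𝓝 0) (𝓝 0) := by
      have := hcvec.tendsto 0
      rwa [hvec0] at this
    have h2 : ContinuousAt F.symm 0 := F.continuousAt_symm hF0t
    have h3 : Tendsto F.symm (𝓝 0) (𝓝 0) := by rw [ContinuousAt, hFs0] at h2; exact h2
    have h4 : ∀ᶠ x : C2 in 𝓝 0, x ∈ W ∩ {x | v x ≠ 0} ∩ U := by
      have h5 : ContinuousAt v 0 := (hv.differentiableAt (hU.mem_nhds h0U)).continuousAt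
      have h6 : ∀ᶠ x in 𝓝 (0 : C2), x ∈ W := hWo.mem_nhds h0W
      have h7 : ∀ᶠ x in 𝓝 (0 : C2), x ∈ U := hU.mem_nhds h0U
      exact (h6.and (h5.eventually_ne hv0)).and h7
    exact (h1.eventually (F.open_target.mem_nhds hF0t)).and (h1.eventually (h3.eventually h4))
  obtain ⟨r, hr, hball⟩ := Metric.eventually_nhds_iff_ball.1 hvec
  -- `jd a b` is holomorphic
  have hjda : ∀ x ∈ U, DifferentiableAt ℂ (jd a b) x := by
    have haa := Vale.Agent.P281.MF.analyticOnNhd_of_differentiableOn hU ha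
    have hba := Vale.Agent.P281.MF.analyticOnNhd_of_differentiableOn hU hb
    intro x hx
    have h1 : ∀ w : C2, DifferentiableAt ℂ (fun x => fderiv ℂ a x w) x := fun w =>
      (haa x hx).fderiv.differentiableAt.clm_apply (differentiableAt_const _)
    have h2 : ∀ w : C2, DifferentiableAt ℂ (fun x => fderiv ℂ b x w) x := fun w =>
      (hba x hx).fderiv.differentiableAt.clm_apply (differentiableAt_const _)
    exact ((h1 _).mul (h2 _)).sub ((h1 _).mul (h2 _))
  set q : C2 → ℂ := fun x => v x * (jd a b x)⁻¹ * (ru x)⁻¹ with hq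
  have hqd : ∀ x ∈ W ∩ F.source, DifferentiableAt ℂ q x := by
    intro x hx
    have h1 := hv.differentiableAt (hU.mem_nhds (hFU hx.2))
    have h2 := (hjda x (hFU hx.2)).inv (hFjd x hx.2)
    have h3 := (hrd.differentiableAt (hWo.mem_nhds hx.1)).inv (hrne x hx.1)
    exact (h1.mul h2).mul h3
  set g : ℂ → ℂ := fun t => q (F.symm ![0, t]) with hg
  have hgd : DifferentiableOn ℂ g (ball 0 r) := by
    intro t ht
    have h1 : DifferentiableAt ℂ F.symm ![0, t] :=
      hFs.differentiableAt (F.open_target.mem_nhds (hball t ht).1)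
    have h2 : DifferentiableAt ℂ (fun t : ℂ => (![0, t] : C2)) t := by
      rw [differentiableAt_pi]
      intro i
      fin_cases i
      · exact differentiableAt_const _
      · exact differentiableAt_id
    have h3 : F.symm ![0, t] ∈ W ∩ F.source := ⟨(hball t ht).2.1.1, F.map_target (hball t ht).1⟩
    exact (DifferentiableAt.comp (g := q) t (hqd _ h3)
      (DifferentiableAt.comp (g := F.symm) t h1 h2)).differentiableWithinAt
  have hg0 : g 0 ≠ 0 := by
    show q (F.symm ![0, 0]) ≠ 0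
    rw [hvec0, hFs0]
    exact mul_ne_zero (mul_ne_zero hv0 (inv_ne_zero hjd)) (inv_ne_zero (hrne 0 h0W))
  obtain ⟨r', hr', hr'r, k, hkd, hkne, hkT⟩ := exists_prim hr hgd hg0
  -- the domain
  set O : Set C2 := (W ∩ F.source) ∩ b ⁻¹' ball 0 r' with hO
  have hOo : IsOpen O := by
    have h1 : ContinuousOn b (W ∩ F.source) :=
      hb.continuousOn.mono (inter_subset_left.trans hWU)
    exact h1.isOpen_inter_preimage (hWo.inter F.open_source) isOpen_ball
  have h0O : (0 : C2) ∈ O := ⟨⟨h0W, hF0⟩, by show b 0 ∈ ball (0 : ℂ) r'; rw [hb0]; exact mem_ball_self hr'⟩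
  have hOU : O ⊆ U := fun x hx => hWU hx.1.1
  -- the new coordinates
  set w : C2 → ℂ := fun x => ru x * ((k (b x)) ^ μ)⁻¹ with hw
  set X : C2 → ℂ := fun x => w x * a x with hX
  set T : C2 → ℂ := fun x => b x * k (b x) with hT
  have hkb : ∀ x ∈ O, DifferentiableAt ℂ (fun x => k (b x)) x := fun x hx =>
    DifferentiableAt.comp (g := k) x (hkd.differentiableAt (isOpen_ball.mem_nhds hx.2)) (hdb x (hOU hx))
  have hwd : ∀ x ∈ O, DifferentiableAt ℂ w x := fun x hx =>
    (hrd.differentiableAt (hWo.mem_nhds hx.1.1)).mul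
      (((hkb x hx).pow μ).inv (pow_ne_zero _ (hkne _ hx.2)))
  have hwne : ∀ x ∈ O, w x ≠ 0 := fun x hx =>
    mul_ne_zero (hrne x hx.1.1) (inv_ne_zero (pow_ne_zero _ (hkne _ hx.2)))
  have hXd : ∀ x ∈ O, DifferentiableAt ℂ X x := fun x hx => (hwd x hx).mul (hda x (hOU hx))
  have hTd : ∀ x ∈ O, HasFDerivAt T (g (b x) • fderiv ℂ b x) x := fun x hx =>
    (hkT (b x) hx.2).comp_hasFDerivAt x (hdb x (hOU hx)).hasFDerivAt
  have hEd : DifferentiableOn ℂ (fun x => (![X x, T x] : C2)) O := by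
    intro x hx
    refine DifferentiableAt.differentiableWithinAt ?_
    rw [differentiableAt_pi]
    intro i
    fin_cases i
    · exact hXd x hx
    · exact (hTd x hx).differentiableAt
  -- the determinant on `a = 0`
  have hdet : ∀ x ∈ O, a x = 0 → jd X T x = w x * g (b x) * jd a b x := by
    intro x hx hax
    have h1 : HasFDerivAt X (w x • fderiv ℂ a x) x := by
      have h2 : HasFDerivAt X (w x • fderiv ℂ a x + a x • fderiv ℂ w x) x :=
        (hwd x hx).hasFDerivAt.mul (hda x (hOU hx)).hasFDerivAt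
      refine h2.congr_fderiv ?_
      ext v
      simp [hax]
    simp only [jd, h1.fderiv, (hTd x hx).fderiv, smul_apply, smul_eq_mul]
    ring
  have hgb : ∀ x ∈ O, a x = 0 → g (b x) = q x := by
    intro x hx hax
    have h1 : (![0, b x] : C2) = F x := by rw [hFx, hax]
    show q (F.symm ![0, b x]) = q x
    rw [h1, F.left_inv hx.1.2]
  have hE0 : (fderiv ℂ (fun x => (![X x, T x] : C2)) 0).det ≠ 0 := by
    rw [det_pair (hXd 0 h0O) (hTd 0 h0O).differentiableAt, hdet 0 h0O ha0]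
    refine mul_ne_zero (mul_ne_zero (hwne 0 h0O) ?_) hjd
    rw [hb0]; exact hg0
  obtain ⟨E, hE0s, hEO, hEx, hEdet, hEs⟩ := exists_ophom hOo hEd h0O hE0
  have hEf : (E : C2 → C2) = fun x => (![X x, T x] : C2) := funext hEx
  have hE0' : ∀ x, E x 0 = X x := fun x => by rw [hEx]; rfl
  have hE1' : ∀ x, E x 1 = T x := fun x => by rw [hEx]; rfl
  refine ⟨E, hE0s, hEO.trans hOU, ?_, ?_, hEs, ?_, ?_, ?_, ?_⟩
  · rw [hEx]
    ext i
    fin_cases i
    · show w 0 * a 0 = 0
      rw [ha0, mul_zero]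
    · show b 0 * k (b 0) = 0
      rw [hb0, zero_mul]
  · rw [hEf]; exact hEd.mono hEO
  · intro x hx
    rw [hE0']
    exact ⟨fun h => by show w x * a x = 0; rw [h, mul_zero],
      fun h => (mul_eq_zero.1 h).resolve_left (hwne x (hEO hx))⟩
  · intro x hx
    rw [hE1']
    exact ⟨fun h => by show b x * k (b x) = 0; rw [h, zero_mul],
      fun h => (mul_eq_zero.1 h).resolve_right (hkne _ (hEO hx).2)⟩
  · intro x hx
    rw [hE0', hE1']
    have hk := hkne _ (hEO hx).2
    have h1 : X x * T x ^ μ = ru x * (a x * b x ^ μ) := by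
      show ru x * ((k (b x)) ^ μ)⁻¹ * a x * (b x * k (b x)) ^ μ = _
      rw [mul_pow]
      have := pow_ne_zero μ hk
      field_simp
    rw [h1, mul_pow, hrm x (hEO hx).1.1, mul_pow, ← pow_mul]
    ring
  · -- the function `H`
    refine ⟨fun y => v (E.symm y) * ((k (b (E.symm y))) ^ μ)⁻¹ * ((jd X T) (E.symm y))⁻¹, ?_, ?_, ?_⟩
    · have hjdXT : ∀ x ∈ O, DifferentiableAt ℂ (jd X T) x := by
        have hXo : DifferentiableOn ℂ X O := fun x hx => (hXd x hx).differentiableWithinAt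
        have hTo : DifferentiableOn ℂ T O := fun x hx => (hTd x hx).differentiableAt.differentiableWithinAt
        have haa := Vale.Agent.P281.MF.analyticOnNhd_of_differentiableOn hOo hXo
        have hba := Vale.Agent.P281.MF.analyticOnNhd_of_differentiableOn hOo hTo
        intro x hx
        have h1 : ∀ w : C2, DifferentiableAt ℂ (fun x => fderiv ℂ X x w) x := fun w =>
          (haa x hx).fderiv.differentiableAt.clm_apply (differentiableAt_const _)
        have h2 : ∀ w : C2, DifferentiableAt ℂ (fun x => fderiv ℂ T x w) x := fun w =>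
          (hba x hx).fderiv.differentiableAt.clm_apply (differentiableAt_const _)
        exact ((h1 _).mul (h2 _)).sub ((h1 _).mul (h2 _))
      intro y hy
      have hx : E.symm y ∈ E.source := E.map_target hy
      have h1 : DifferentiableAt ℂ E.symm y := hEs.differentiableAt (E.open_target.mem_nhds hy)
      have hne : jd X T (E.symm y) ≠ 0 := by
        have := hEdet _ hx
        rwa [det_pair (hXd _ (hEO hx)) (hTd _ (hEO hx)).differentiableAt] at this
      have h2 : DifferentiableAt ℂ (fun x => v x * ((k (b x)) ^ μ)⁻¹ * ((jd X T) x)⁻¹) (E.symm y) :=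
        ((hv.differentiableAt (hU.mem_nhds (hOU (hEO hx)))).mul
          (((hkb _ (hEO hx)).pow μ).inv (pow_ne_zero _ (hkne _ (hEO hx).2)))).mul
          ((hjdXT _ (hEO hx)).inv hne)
      exact (DifferentiableAt.comp (g := fun x => v x * ((k (b x)) ^ μ)⁻¹ * ((jd X T) x)⁻¹) y h2
        h1).differentiableWithinAt
    · intro y hy hy0
      have hx : E.symm y ∈ E.source := E.map_target hy
      have hxO := hEO hx
      set x := E.symm y with hxdef
      have hax : a x = 0 := by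
        have h1 : E x 0 = 0 := by rw [hxdef, E.right_inv hy]; exact hy0
        rw [hE0'] at h1
        exact (mul_eq_zero.1 h1).resolve_left (hwne x hxO)
      show v x * ((k (b x)) ^ μ)⁻¹ * (jd X T x)⁻¹ = 1
      rw [hdet x hxO hax, hgb x hxO hax]
      have h1 : jd a b x ≠ 0 := hFjd x hxO.1.2
      have h2 := hrne x hxO.1.1
      have h3 := pow_ne_zero μ (hkne _ hxO.2)
      have h4 : v x ≠ 0 := by
        have h5 := (hball (b x) (ball_subset_ball hr'r hxO.2)).2.1.2
        have h6 : (![0, b x] : C2) = F x := by rw [hFx, hax]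
        rw [h6, F.left_inv hxO.1.2] at h5
        exact h5
      show v x * ((k (b x)) ^ μ)⁻¹ * (ru x * ((k (b x)) ^ μ)⁻¹ * (v x * (jd a b x)⁻¹ * (ru x)⁻¹) *
        jd a b x)⁻¹ = 1
      field_simp
    · intro x hx
      have hxO := hEO hx
      have hne : jd X T x ≠ 0 := by
        have := hEdet _ hx
        rwa [det_pair (hXd _ hxO) (hTd _ hxO).differentiableAt] at this
      have hdE : (fderiv ℂ E x).det = jd X T x := by
        rw [hEf, det_pair (hXd _ hxO) (hTd _ hxO).differentiableAt]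
      rw [hdE, hE1']
      have h3 := hkne _ hxO.2
      show v x * b x ^ μ = v (E.symm (E x)) * ((k (b (E.symm (E x)))) ^ μ)⁻¹ *
        (jd X T (E.symm (E x)))⁻¹ * (b x * k (b x)) ^ μ * jd X T x
      rw [E.left_inv hx]
      rw [mul_pow]
      have := pow_ne_zero μ h3
      field_simp

end Vale.Agent.P267.H714
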