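import Vale.Agent.P267.H714.Glob

/-!
# LeafOut from the family of solutions
-/

open Set Filter Metric
open scoped Topology Manifold ContDiff NNReal

noncomputable section

namespace Vale.Agent.P267.H714

open Vale.Agent.P267.FL Vale.Agent.P267.H759

variable {M : Type*} [TopologicalSpace M] [ChartedSpace C2 M] {D : LeafIn M} {Ef : ℂ → ℂ → M}

theorem Pack.zz_Th (P : Pack D Ef) {x : C2} (hx : x ∈ pbd D.c₀) : D.zz (Th D Ef x) = x 0 ^ D.m := by
  by_cases h0 : x 0 = 0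
  · rw [Th_zero h0, D.κ_zz x (zero_mem_cusp h0 (ne_zero_of_pbd hx h0) (by linarith [hx.2.2]))]
  · rw [Th_ne h0, P.zz _ (norm_pos_iff.2 h0) hx.2.1 _ (mem_ball_six hx.2.2)]

theorem Pack.Th_mem (P : Pack D Ef) {x : C2} (hx : x ∈ pbd D.c₀) : Th D Ef x ∈ D.Y := by
  by_cases h0 : x 0 = 0
  · rw [Th_zero h0]
    exact D.κ_mem x (zero_mem_cusp h0 (ne_zero_of_pbd hx h0) (by linarith [hx.2.2]))
  · rw [Th_ne h0]
    exact (P.sol (norm_pos_iff.2 h0) hx.2.1 hx.2.2).mem

theorem κ_inj {x x' : C2} (hx : x ∈ cusp D.c₀ D.δ D.μ) (hx' : x' ∈ cusp D.c₀ D.δ D.μ)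
    (h : D.κ x = D.κ x') : x = x' := by rw [← D.κi_κ x hx, h, D.κi_κ x' hx']

theorem Pack.injOn (P : Pack D Ef) : InjOn (Th D Ef) (pbd D.c₀) := by
  intro x hx x' hx' h
  have hm := D.m_pos
  have hzz : x 0 ^ D.m = x' 0 ^ D.m := by rw [← P.zz_Th hx, h, P.zz_Th hx']
  by_cases h0 : x 0 = 0
  · have h0' : x' 0 = 0 := by
      rw [h0, zero_pow hm.ne'] at hzz
      exact (pow_eq_zero_iff hm.ne').1 hzz.symm
    rw [Th_zero h0, Th_zero h0'] at h
    exact κ_inj (zero_mem_cusp h0 (ne_zero_of_pbd hx h0) (by linarith [hx.2.2]))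
      (zero_mem_cusp h0' (ne_zero_of_pbd hx' h0') (by linarith [hx'.2.2])) h
  · have h0' : x' 0 ≠ 0 := by
      intro h0'
      rw [h0', zero_pow hm.ne'] at hzz
      exact h0 ((pow_eq_zero_iff hm.ne').1 hzz)
    rw [Th_ne h0, Th_ne h0'] at h
    obtain ⟨h1, h2⟩ := P.inj _ _ (norm_pos_iff.2 h0) hx.2.1 (norm_pos_iff.2 h0') hx'.2.1 _ _
      hx.2.2 hx'.2.2 h
    ext i
    fin_cases i
    · exact h1
    · exact h2

theorem isOpen_pbd (c₀ : ℝ) : IsOpen (pbd c₀) := by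
  have h0 : Continuous fun x : C2 => ‖x 0‖ := (continuous_apply 0).norm
  have h1 : Continuous fun x : C2 => ‖x 1‖ := (continuous_apply 1).norm
  exact isOpen_ne.inter ((isOpen_lt h0 continuous_const).inter (isOpen_lt h1 continuous_const))

variable [T2Space M] [IsManifold 𝓘(ℂ, C2) ω M]

theorem Pack.map_nhds (P : Pack D Ef) {x : C2} (hx : x ∈ pbd D.c₀) :
    map (Th D Ef) (𝓝 x) = 𝓝 (Th D Ef x) :=
  (local_inverse (P.hol hx) (hc_chart _) (mem_chart_source C2 _)
    (fun v hv => P.inj_fderiv hx v hv)).1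

theorem Pack.isOpen_image (P : Pack D Ef) {S : Set C2} (hS : IsOpen S) (hSp : S ⊆ pbd D.c₀) :
    IsOpen (Th D Ef '' S) := by
  rw [isOpen_iff_mem_nhds]
  rintro _ ⟨x, hx, rfl⟩
  rw [← P.map_nhds (hSp hx)]
  exact image_mem_map (hS.mem_nhds hx)

/-- everything is covered -/
theorem Pack.covers (P : Pack D Ef) (y : M) (hy : y ∈ D.Y) : y ∈ Th D Ef '' pbd D.c₀ ∨
    y ∈ D.κ '' {x | x ∈ cusp D.c₀ D.δ D.μ ∧ 9 / 2 < ‖x 1‖} := by
  have hm := D.m_pos
  by_cases hz : D.zz y = 0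
  · -- the zero fibre
    obtain ⟨x, hx, rfl⟩ := D.zero y hy hz
    rw [D.κ_zz x hx] at hz
    have h0 : x 0 = 0 := (pow_eq_zero_iff hm.ne').1 hz
    by_cases h5 : ‖x 1‖ < 5
    · left
      refine ⟨x, ⟨?_, hx.1, h5⟩, Th_zero h0⟩
      rintro rfl
      have := hx.2.1
      simp at this
    · right
      exact ⟨x, ⟨hx, by linarith [not_lt.1 h5]⟩, rfl⟩
  -- the other fibres
  set S : Set M := {y | y ∈ D.Y ∧ D.zz y ≠ 0} with hS
  set P' : Set C2 := {x | x ∈ pbd D.c₀ ∧ x 0 ≠ 0} with hP'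
  set Q' : Set C2 := {x | x ∈ cusp D.c₀ D.δ D.μ ∧ x 0 ≠ 0 ∧ 9 / 2 < ‖x 1‖} with hQ'
  have hP'o : IsOpen P' := (isOpen_pbd _).inter (isOpen_ne.preimage (continuous_apply 0))
  have hQ'o : IsOpen Q' := (isOpen_cusp _ _ _).inter
    ((isOpen_ne.preimage (continuous_apply 0)).inter
      (isOpen_lt continuous_const (continuous_apply 1).norm))
  -- images are open
  have hA1 : IsOpen (Th D Ef '' P') := P.isOpen_image hP'o fun x hx => hx.1
  have hA2 : IsOpen (D.κ '' Q') := by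
    have h1 : D.κ '' Q' = D.κ '' cusp D.c₀ D.δ D.μ ∩ D.κi ⁻¹' Q' := by
      ext w
      constructor
      · rintro ⟨x, hx, rfl⟩
        refine ⟨⟨x, hx.1, rfl⟩, ?_⟩
        show D.κi (D.κ x) ∈ Q'
        rw [D.κi_κ x hx.1]; exact hx
      · rintro ⟨⟨x, hx, rfl⟩, h⟩
        have h' : D.κi (D.κ x) ∈ Q' := h
        rw [D.κi_κ x hx] at h'
        exact ⟨x, h', rfl⟩
    rw [h1]
    exact D.κi_hol.continuousOn.isOpen_inter_preimage D.κ_open hQ'o
  have hsub : S ⊆ Th D Ef '' P' ∪ D.κ '' Q' := by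
    refine D.conn.subset_of_closure_inter_subset (hA1.union hA2) ?_ ?_
    · -- nonempty
      have hc : ‖((D.c₀ / 2 : ℝ) : ℂ)‖ = D.c₀ / 2 := by
        rw [Complex.norm_real, Real.norm_of_nonneg (by linarith [D.c₀_pos])]
      have h0 : ((D.c₀ / 2 : ℝ) : ℂ) ≠ 0 := by
        rw [← norm_pos_iff, hc]; linarith [D.c₀_pos]
      have hx : ![((D.c₀ / 2 : ℝ) : ℂ), 1] ∈ pbd D.c₀ := by
        refine ⟨fun h => h0 (by simpa using congrFun h 0), ?_, ?_⟩
        · show ‖((D.c₀ / 2 : ℝ) : ℂ)‖ < D.c₀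
          rw [hc]; linarith [D.c₀_pos]
        · show ‖(1 : ℂ)‖ < 5
          rw [norm_one]; norm_num
      refine ⟨Th D Ef ![((D.c₀ / 2 : ℝ) : ℂ), 1], ⟨P.Th_mem hx, ?_⟩, Or.inl ⟨_, ⟨hx, h0⟩, rfl⟩⟩
      rw [P.zz_Th hx]
      exact pow_ne_zero _ h0
    · -- closed
      rintro y ⟨hycl, hyY, hyz⟩
      rw [closure_union] at hycl
      have hcase2 : ∀ r : ℝ, 9 / 2 ≤ r → r < 8 →
          y ∈ closure (D.κ '' {x | x ∈ cusp D.c₀ D.δ D.μ ∧ r ≤ ‖x 1‖}) →
          y ∈ Th D Ef '' P' ∪ D.κ '' Q' := by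
        intro r hr hr8 hcl
        obtain ⟨x, ⟨hx, hxr⟩, rfl⟩ := D.κ_closed r (by linarith) hr8 y hyY hcl
        rw [D.κ_zz x hx] at hyz
        have h0 : x 0 ≠ 0 := fun h => hyz (by rw [h, zero_pow hm.ne'])
        rcases (hr.trans hxr).eq_or_lt with h | h
        · left
          obtain ⟨z, hz1, hz2⟩ := P.surj (x 0) (norm_pos_iff.2 h0) hx.1 (x 1)
            (by rw [← h]; norm_num) (by rw [← h]; norm_num)
          rw [vec_eq] at hz2
          have hz5 : ‖z‖ < 5 := by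
            have := norm_sub_norm_le z (x 1)
            linarith
          refine ⟨![x 0, z], ⟨⟨fun h => h0 (by simpa using congrFun h 0), hx.1, hz5⟩, h0⟩, ?_⟩
          rw [Th_ne (x := ![x 0, z]) h0]
          exact hz2
        · right
          exact ⟨x, ⟨hx, h0, h⟩, rfl⟩
      rcases hycl with hcl | hcl
      · -- limits of points of the punctured bidisc
        have hzc : ContinuousAt D.zz y := (D.zz_hol y hyY).continuousAt
        have hzp : 0 < ‖D.zz y‖ := norm_pos_iff.2 hyz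
        -- radii
        obtain ⟨r₁, hr₁, hr₁'⟩ : ∃ r₁ > 0, r₁ ^ D.m < ‖D.zz y‖ := by
          have h1 : Tendsto (fun r : ℝ => r ^ D.m) (𝓝[>] 0) (𝓝 0) := by
            have h2 : ContinuousAt (fun r : ℝ => r ^ D.m) 0 := by fun_prop
            have h3 : Tendsto (fun r : ℝ => r ^ D.m) (𝓝 0) (𝓝 (0 ^ D.m)) := h2
            rw [zero_pow hm.ne'] at h3
            exact h3.mono_left nhdsWithin_le_nhds
          have h4 := (h1.eventually (gt_mem_nhds hzp)).and self_mem_nhdsWithin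
          obtain ⟨r, h5, h6⟩ := h4.exists
          exact ⟨r, h6, h5⟩
        obtain ⟨r₂, hr₂, hr₂', hr₂0⟩ : ∃ r₂ < D.c₀, ‖D.zz y‖ < r₂ ^ D.m ∧ 0 < r₂ := by
          have h2 : ContinuousAt (fun r : ℝ => r ^ D.m) D.c₀ := by fun_prop
          have h3 : ∀ᶠ r in 𝓝[<] D.c₀, ‖D.zz y‖ < r ^ D.m :=
            (h2.eventually (lt_mem_nhds (D.zz_lt y hyY))).filter_mono nhdsWithin_le_nhds
          have h4 : ∀ᶠ r in 𝓝[<] D.c₀, 0 < r :=
            (lt_mem_nhds D.c₀_pos).filter_mono nhdsWithin_le_nhds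
          obtain ⟨r, h5, h6, h7⟩ := (h3.and (h4.and self_mem_nhdsWithin)).exists
          exact ⟨r, h7, h5, h6⟩
        set K : Set C2 := {x | r₁ ≤ ‖x 0‖ ∧ ‖x 0‖ ≤ r₂ ∧ ‖x 1‖ ≤ 49 / 10} with hK
        have hn0 : Continuous fun x : C2 => ‖x 0‖ := (continuous_apply 0).norm
        have hn1 : Continuous fun x : C2 => ‖x 1‖ := (continuous_apply 1).norm
        have hKc : IsCompact K := by
          refine Metric.isCompact_of_isClosed_isBounded ?_ ?_
          · exact (isClosed_le continuous_const hn0).inter ((isClosed_le hn0 continuous_const).inter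
              (isClosed_le hn1 continuous_const))
          · refine (Metric.isBounded_closedBall (x := (0 : C2)) (r := max r₂ (49 / 10))).subset ?_
            rintro x ⟨-, h1, h2⟩
            rw [mem_closedBall_zero_iff, pi_norm_le_iff_of_nonneg (by positivity)]
            intro i
            fin_cases i
            · exact h1.trans (le_max_left _ _)
            · exact h2.trans (le_max_right _ _)
        have hKP : K ⊆ P' := by
          rintro x ⟨h1, h2, h3⟩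
          have h0 : x 0 ≠ 0 := norm_pos_iff.1 (hr₁.trans_le h1)
          exact ⟨⟨fun h => h0 (by rw [h]; rfl), h2.trans_lt hr₂, by linarith⟩, h0⟩
        have hKim : IsClosed (Th D Ef '' K) := by
          refine (hKc.image_of_continuousOn fun x hx => ?_).isClosed
          exact (P.hol (hKP hx).1).self_of_nhds.continuousAt.continuousWithinAt
        have hfr : ∃ᶠ w in 𝓝 y, w ∈ Th D Ef '' P' := mem_closure_iff_frequently.1 hcl
        have hnear : ∀ᶠ w in 𝓝 y, r₁ ^ D.m < ‖D.zz w‖ ∧ ‖D.zz w‖ < r₂ ^ D.m :=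
          (hzc.norm.eventually (lt_mem_nhds hr₁')).and (hzc.norm.eventually (gt_mem_nhds hr₂'))
        have hfr2 : ∃ᶠ w in 𝓝 y, w ∈ Th D Ef '' K ∪
            D.κ '' {x | x ∈ cusp D.c₀ D.δ D.μ ∧ 24 / 5 ≤ ‖x 1‖} := by
          refine (hfr.and_eventually hnear).mono ?_
          rintro _ ⟨⟨x, hx, rfl⟩, h1, h2⟩
          rw [P.zz_Th hx.1, norm_pow] at h1 h2
          have g1 : r₁ < ‖x 0‖ := lt_of_pow_lt_pow_left₀ D.m (norm_nonneg _) h1
          have g2 : ‖x 0‖ < r₂ := lt_of_pow_lt_pow_left₀ D.m hr₂0.le h2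
          by_cases h5 : ‖x 1‖ ≤ 49 / 10
          · left
            exact ⟨x, ⟨g1.le, g2.le, h5⟩, rfl⟩
          · right
            obtain ⟨T, hT⟩ := P.cmp (x 0) (norm_pos_iff.2 hx.2) hx.1.2.1
            obtain ⟨k1, k2, k3⟩ := hT (x 1) (by linarith [not_le.1 h5]) hx.1.2.2
            refine ⟨![x 0, T (x 1)], ⟨k1, ?_⟩, ?_⟩
            · show 24 / 5 ≤ ‖T (x 1)‖
              have := norm_sub_norm_le (x 1) (T (x 1))
              rw [norm_sub_rev] at this
              linarith [not_le.1 h5]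
            · rw [Th_ne hx.2]; exact k2.symm
        have hcl2 := mem_closure_iff_frequently.2 hfr2
        rw [closure_union, hKim.closure_eq] at hcl2
        rcases hcl2 with h | h
        · left
          obtain ⟨x, hx, rfl⟩ := h
          exact ⟨x, hKP hx, rfl⟩
        · exact hcase2 (24 / 5) (by norm_num) (by norm_num) h
      · exact hcase2 (9 / 2) le_rfl (by norm_num)
          (closure_mono (by rintro _ ⟨x, hx, rfl⟩; exact ⟨x, ⟨hx.1, hx.2.2.le⟩, rfl⟩) hcl)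
  rcases hsub ⟨hy, hz⟩ with ⟨x, hx, rfl⟩ | ⟨x, hx, rfl⟩
  · exact Or.inl ⟨x, hx.1, rfl⟩
  · exact Or.inr ⟨x, ⟨hx.1, hx.2.2⟩, rfl⟩

/-- `LeafOut` from a pack -/
def Pack.out (P : Pack D Ef) : LeafOut D where
  Θ := Th D Ef
  Θi := by
    classical exact Function.invFunOn (Th D Ef) (pbd D.c₀)
  Θ_mem := fun x hx => P.Th_mem hx
  Θ_hol := fun x hx => (P.hol hx).self_of_nhds.mdifferentiableWithinAt
  Θi_Θ := fun x hx => P.injOn.leftInvOn_invFunOn hx
  Θ_open := P.isOpen_image (isOpen_pbd _) subset_rfl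
  Θi_hol := by
    rintro _ ⟨x, hx, rfl⟩
    refine ((local_inverse (P.hol hx) (hc_chart _) (mem_chart_source C2 _)
      (fun v hv => P.inj_fderiv hx v hv)).2 _ ?_).mdifferentiableWithinAt
    filter_upwards [(isOpen_pbd D.c₀).mem_nhds hx] with x' hx'
    exact P.injOn.leftInvOn_invFunOn hx'
  Θ_zz := fun x hx => P.zz_Th hx
  Θ_zero := fun x _ h0 => Th_zero h0
  Θ_κ := by
    intro x hx h4
    by_cases h0 : x 0 = 0
    · refine ⟨x, zero_mem_cusp h0 (ne_zero_of_pbd hx h0) (by linarith [hx.2.2]), rfl, ?_, Th_zero h0⟩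
      rw [sub_self, norm_zero]; norm_num
    · obtain ⟨T, hT⟩ := P.cmp (x 0) (norm_pos_iff.2 h0) hx.2.1
      obtain ⟨k1, k2, k3⟩ := hT (x 1) (by linarith) hx.2.2
      refine ⟨_, k1, rfl, k3.trans (by norm_num), ?_⟩
      rw [Th_ne h0]; exact k2
  κ_Θ := by
    intro x hx x' hx' h3 h
    have hm := D.m_pos
    have hzz : x 0 ^ D.m = x' 0 ^ D.m := by rw [← P.zz_Th hx, h, D.κ_zz x' hx']
    by_cases h0 : x 0 = 0
    · rw [Th_zero h0] at h
      have h1 := κ_inj (zero_mem_cusp h0 (ne_zero_of_pbd hx h0) (by linarith [hx.2.2])) hx' h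
      rw [← h1]
      refine ⟨rfl, ?_⟩
      rw [sub_self, norm_zero]; norm_num
    · have h0' : x' 0 ≠ 0 := by
        intro h0'
        rw [h0', zero_pow hm.ne'] at hzz
        exact h0 ((pow_eq_zero_iff hm.ne').1 hzz)
      have hc := norm_pos_iff.2 h0
      by_cases h1 : 6 / 25 < ‖x 1‖
      · obtain ⟨T, hT⟩ := P.cmp (x 0) hc hx.2.1
        obtain ⟨k1, k2, k3⟩ := hT (x 1) h1 hx.2.2
        rw [Th_ne h0, k2] at h
        have h2 := κ_inj k1 hx' h
        rw [← h2]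
        exact ⟨rfl, k3.trans (by norm_num)⟩
      · exfalso
        rw [Th_ne h0] at h
        have h2 := P.esc (x 0) hc hx.2.1 (x 1) (mem_ball_six hx.2.2) x' hx' h
        have h4 : ‖x 1 - 1‖ ≤ ‖x 1‖ + 1 := by
          have := norm_sub_le (x 1) 1
          rwa [norm_one] at this
        obtain ⟨z, hz1, hz2⟩ := P.surj (x' 0) (norm_pos_iff.2 h0') hx'.1 (x' 1)
          (by linarith) (by linarith [not_lt.1 h1])
        rw [vec_eq, ← h] at hz2
        have h5 : ‖z‖ < 5 := by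
          have := norm_sub_norm_le z (x' 1)
          linarith [not_lt.1 h1]
        have h6 := (P.inj _ _ (norm_pos_iff.2 h0') hx'.1 hc hx.2.1 z (x 1) h5 hx.2.2 hz2).2
        have h7 := norm_sub_norm_le (x' 1) z
        rw [norm_sub_rev, h6] at h7
        rw [h6] at hz1
        linarith [not_lt.1 h1]
  surj := fun y hy => P.covers y hy

end Vale.Agent.P267.H714
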