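import Vale.Agent.P267.H714.Coord
import Vale.Agent.P267.H759.LeafIface

/-!
# Unit speed solutions on the leaves `zz = const` (for LeafThm of H759/LeafIface)

`Sol D ρ E U`: `E` is a holomorphic map `U → D.Y` into a leaf of `D.zz`, through points where
`d zz ≠ 0`, with `|ω(E', u)| * ρ = |d zz (u)|` for all tangent vectors `u`. On the leaf
`zz = c ^ m` one takes `ρ = m * ‖c‖ ^ (m - 1)`; then `|ω (E', ·)| = |dz|`, `z ^ m = zz`.
-/

open Set Filter Metric
open scoped Topology Manifold ContDiff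

noncomputable section

namespace Vale.Agent.P267.H714

open Vale.Agent.P267.FL Vale.Agent.P267.H759

variable {M : Type*} [TopologicalSpace M] [ChartedSpace C2 M]

/-- `|ω|` at `y` in the holomorphic chart `e` -/
def Ge (D : LeafIn M) (e : Ch M) (y : M) : ℝ := D.G y * ‖(tr e (chartAt C2 y) y).det‖

/-- the differential of `zz` at `y` in the holomorphic chart `e` -/
def dzz (D : LeafIn M) (e : Ch M) (y : M) : C2 →L[ℂ] ℂ :=
  fderiv ℂ (fun x => D.zz (e.symm x)) (e y)

/-- the unit speed equation for the tangent vector `v` at `y` in the holomorphic chart `e` -/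
def UE (D : LeafIn M) (ρ : ℝ) (e : Ch M) (y : M) (v : C2) : Prop :=
  ∀ u : C2, Ge D e y * ‖wd v u‖ * ρ = ‖dzz D e y u‖

/-- unit speed solution at the time `z` -/
structure SolAt (D : LeafIn M) (ρ : ℝ) (E : ℂ → M) (z : ℂ) : Prop where
  mem : E z ∈ D.Y
  diff : MDifferentiableAt 𝓘(ℂ) 𝓘(ℂ, C2) E z
  reg : dzz D (chartAt C2 (E z)) (E z) ≠ 0
  ue : UE D ρ (chartAt C2 (E z)) (E z) (deriv (fun w => chartAt C2 (E z) (E w)) z)

/-- unit speed solution on `U` -/
def Sol (D : LeafIn M) (ρ : ℝ) (E : ℂ → M) (U : Set ℂ) : Prop := ∀ z ∈ U, SolAt D ρ E z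

variable {D : LeafIn M} {ρ : ℝ} {E F : ℂ → M} {z : ℂ} {U : Set ℂ}

theorem SolAt.congr (h : SolAt D ρ E z) (hEF : E =ᶠ[𝓝 z] F) : SolAt D ρ F z := by
  have h0 : E z = F z := hEF.self_of_nhds
  have hd : deriv (fun w => chartAt C2 (E z) (E w)) z = deriv (fun w => chartAt C2 (F z) (F w)) z := by
    rw [← h0]
    refine Filter.EventuallyEq.deriv_eq ?_
    filter_upwards [hEF] with w hw
    rw [hw]
  refine ⟨h0 ▸ h.mem, h.diff.congr_of_eventuallyEq hEF.symm, h0 ▸ h.reg, ?_⟩
  rw [← hd, ← h0]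
  exact h.ue

theorem Sol.mono (h : Sol D ρ E U) {U' : Set ℂ} (hU : U' ⊆ U) : Sol D ρ E U' :=
  fun z hz => h z (hU hz)

theorem Sol.mdiff (h : Sol D ρ E U) : MDifferentiableOn 𝓘(ℂ) 𝓘(ℂ, C2) E U :=
  fun z hz => (h z hz).diff.mdifferentiableWithinAt

section

variable [IsManifold 𝓘(ℂ, C2) ω M]

theorem Ge_trans (D : LeafIn M) {e e' : Ch M} (he : HC e) (he' : HC e') {y : M}
    (hy : y ∈ e.source) (hy' : y ∈ e'.source) : Ge D e y = Ge D e' y * ‖(tr e e' y).det‖ := by
  unfold Ge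
  rw [← tr_trans he he' (hc_chart y) hy hy' (mem_chart_source C2 y), det_comp, norm_mul]
  ring

theorem Ge_pos {e : Ch M} (he : HC e) {y : M} (hY : y ∈ D.Y) (hy : y ∈ e.source) : 0 < Ge D e y :=
  mul_pos (D.G_pos y hY) (norm_pos_iff.2 (det_tr_ne he (hc_chart y) hy (mem_chart_source C2 y)))

theorem dzz_trans {e e' : Ch M} (he : HC e) (he' : HC e') {y : M} (hY : y ∈ D.Y)
    (hy : y ∈ e.source) (hy' : y ∈ e'.source) (u : C2) :
    dzz D e y u = dzz D e' y (tr e e' y u) := by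
  unfold dzz
  rw [fderiv_trans he he' (D.zz_hol y hY) hy hy']
  rfl

theorem dzz_ne_iff {e e' : Ch M} (he : HC e) (he' : HC e') {y : M} (hY : y ∈ D.Y)
    (hy : y ∈ e.source) (hy' : y ∈ e'.source) : dzz D e y ≠ 0 ↔ dzz D e' y ≠ 0 := by
  have key : ∀ {e e' : Ch M}, HC e → HC e' → y ∈ e.source → y ∈ e'.source →
      dzz D e' y = 0 → dzz D e y = 0 := by
    intro e e' he he' hy hy' h
    ext1 u
    rw [dzz_trans he he' hY hy hy', h]
    simp
  exact ⟨fun h h' => h (key he he' hy hy' h'), fun h h' => h (key he' he hy' hy h')⟩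

theorem ue_trans {e e' : Ch M} (he : HC e) (he' : HC e') {y : M} (hY : y ∈ D.Y)
    (hy : y ∈ e.source) (hy' : y ∈ e'.source) {v : C2} (h : UE D ρ e' y (tr e e' y v)) :
    UE D ρ e y v := by
  intro u
  have h1 := h (tr e e' y u)
  rw [wd_clm, norm_mul] at h1
  rw [dzz_trans he he' hY hy hy', Ge_trans D he he' hy hy', ← h1]
  ring

/-- The unit speed equation may be checked in any holomorphic chart. -/
theorem solAt_of_chart {e : Ch M} (he : HC e) (hY : E z ∈ D.Y) (hy : E z ∈ e.source)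
    (hE : MDifferentiableAt 𝓘(ℂ) 𝓘(ℂ, C2) E z) (hreg : dzz D e (E z) ≠ 0)
    (hue : UE D ρ e (E z) (deriv (fun w => e (E w)) z)) : SolAt D ρ E z := by
  have hy' := mem_chart_source C2 (E z)
  have hc := hc_chart (E z)
  refine ⟨hY, hE, (dzz_ne_iff he hc hY hy hy').1 hreg, ue_trans hc he hY hy' hy ?_⟩
  rw [← deriv_trans hc he hE hy' hy]
  exact hue

theorem SolAt.reg' (h : SolAt D ρ E z) {e : Ch M} (he : HC e) (hy : E z ∈ e.source) :
    dzz D e (E z) ≠ 0 :=
  (dzz_ne_iff (hc_chart (E z)) he h.mem (mem_chart_source C2 (E z)) hy).1 h.reg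

theorem SolAt.ue' (h : SolAt D ρ E z) {e : Ch M} (he : HC e) (hy : E z ∈ e.source) :
    UE D ρ e (E z) (deriv (fun w => e (E w)) z) := by
  have hy' := mem_chart_source C2 (E z)
  have hc := hc_chart (E z)
  refine ue_trans he hc h.mem hy hy' ?_
  rw [← deriv_trans he hc h.diff hy hy']
  exact h.ue

theorem SolAt.deriv_ne (h : SolAt D ρ E z) {e : Ch M} (he : HC e) (hy : E z ∈ e.source) :
    deriv (fun w => e (E w)) z ≠ 0 := by
  intro h0
  apply h.reg' he hy
  ext1 u
  have h1 := h.ue' he hy u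
  rw [h0] at h1
  have h2 : wd 0 u = 0 := by simp [wd]
  rw [h2, norm_zero, mul_zero, zero_mul] at h1
  simpa using h1.symm

/-- `zz` is constant along a solution -/
theorem SolAt.hasDerivAt_zz (h : SolAt D ρ E z) : HasDerivAt (fun w => D.zz (E w)) 0 z := by
  set e := chartAt C2 (E z) with he
  have hc : HC e := hc_chart (E z)
  have hy : E z ∈ e.source := mem_chart_source C2 (E z)
  have h1 : HasDerivAt (fun w => e (E w)) (deriv (fun w => e (E w)) z) z :=
    (diff_curve hc h.diff hy).hasDerivAt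
  have h2 : HasFDerivAt (fun x => D.zz (e.symm x)) (dzz D e (E z)) (e (E z)) :=
    (hc.diff_fun hy (D.zz_hol _ h.mem)).hasFDerivAt
  have h3 := h2.comp_hasDerivAt z h1
  have h4 : dzz D e (E z) (deriv (fun w => e (E w)) z) = 0 := by
    have := h.ue (deriv (fun w => e (E w)) z)
    rw [wd_self, norm_zero, mul_zero, zero_mul] at this
    exact norm_eq_zero.1 this.symm
  rw [h4] at h3
  refine h3.congr_of_eventuallyEq ?_
  filter_upwards [h.diff.continuousAt.eventually (e.open_source.mem_nhds hy)] with w hw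
  simp only [Function.comp_apply]
  rw [e.left_inv hw]

theorem Sol.zz_eq (h : Sol D ρ E U) (hU : IsOpen U) (hc : IsPreconnected U) {z w : ℂ} (hz : z ∈ U)
    (hw : w ∈ U) : D.zz (E z) = D.zz (E w) :=
  hU.is_const_of_deriv_eq_zero hc
    (fun x hx => (h x hx).hasDerivAt_zz.differentiableAt.differentiableWithinAt)
    (fun x hx => (h x hx).hasDerivAt_zz.deriv) hz hw

/-- invariance under Euclidean isometries of the time plane -/
theorem SolAt.comp_isometry {ζ b : ℂ} (hζ : ‖ζ‖ = 1) (h : SolAt D ρ E (ζ * z + b)) :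
    SolAt D ρ (fun w => E (ζ * w + b)) z := by
  have hl : HasDerivAt (fun w : ℂ => ζ * w + b) ζ z := by
    simpa using ((hasDerivAt_id z).const_mul ζ).add_const b
  have hE : MDifferentiableAt 𝓘(ℂ) 𝓘(ℂ, C2) (fun w => E (ζ * w + b)) z :=
    MDifferentiableAt.comp z h.diff hl.differentiableAt.mdifferentiableAt
  set e := chartAt C2 (E (ζ * z + b)) with he
  have hc : HC e := hc_chart _
  have hy : E (ζ * z + b) ∈ e.source := mem_chart_source C2 _
  refine solAt_of_chart hc h.mem hy hE (h.reg' hc hy) ?_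
  have h1 : HasDerivAt (fun w => e (E w)) (deriv (fun w => e (E w)) (ζ * z + b)) (ζ * z + b) :=
    (diff_curve hc h.diff hy).hasDerivAt
  have h2 := HasDerivAt.scomp z h1 hl
  have h3 : deriv (fun w => e (E (ζ * w + b))) z = ζ • deriv (fun w => e (E w)) (ζ * z + b) :=
    h2.deriv
  rw [h3]
  intro u
  rw [wd_smul_left, norm_mul, hζ, one_mul]
  exact h.ue' hc hy u

end

end Vale.Agent.P267.H714
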